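import Vale.Agent.Lib.P093.Operators

/-!
Adjoints of the concrete operators on `ℓ²` and the operators attached to a homeomorphism.
-/

namespace Vale.Agent.Lib.P093

open Filter Topology
open scoped ENNReal NNReal InnerProductSpace

noncomputable section

variable {X Y : Type*}

lemma adjoint_mulOp (f : X → ℂ) (K : ℝ≥0) (hf : ∀ x, ‖f x‖ ≤ K) :
    ContinuousLinearMap.adjoint (mulOp f K hf)
      = mulOp (fun x => (starRingEnd ℂ) (f x)) K (fun x => by simpa using hf x) := by
  symm
  rw [ContinuousLinearMap.eq_adjoint_iff]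
  intro ξ η
  rw [lp.inner_eq_tsum, lp.inner_eq_tsum]
  refine tsum_congr ?_
  intro x
  simp
  ring

lemma adjoint_pullOp_equiv (e : X ≃ Y) :
    ContinuousLinearMap.adjoint (pullOp e e.injective) = pullOp e.symm e.symm.injective := by
  symm
  rw [ContinuousLinearMap.eq_adjoint_iff]
  intro ξ η
  rw [lp.inner_eq_tsum, lp.inner_eq_tsum]
  have := Equiv.tsum_eq e (fun y => ⟪ξ (e.symm y), η y⟫_ℂ)
  exact this.symm.trans (tsum_congr fun x => by simp)

/-- Restriction `ℓ²(X) → ℓ²(D)`. -/
def resOp (D : Set X) : L2 X →L[ℂ] L2 D :=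
  pullOp (Subtype.val : D → X) Subtype.val_injective

@[simp]
lemma resOp_apply (D : Set X) (ξ : L2 X) (y : D) : resOp D ξ y = ξ y := rfl

lemma adjoint_extOp (D : Set X) : ContinuousLinearMap.adjoint (extOp D) = resOp D := by
  symm
  rw [ContinuousLinearMap.eq_adjoint_iff]
  intro ξ η
  rw [lp.inner_eq_tsum, lp.inner_eq_tsum]
  have := Function.Injective.tsum_eq (g := (Subtype.val : D → X)) Subtype.val_injective
    (f := fun x => ⟪ξ x, extOp D η x⟫_ℂ) ?_
  · exact (tsum_congr fun y => by simp).trans this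
  · intro x hx
    by_contra hx'
    have : x ∉ D := fun h => hx' ⟨⟨x, h⟩, rfl⟩
    simp [extOp_apply_not_mem D _ this] at hx

lemma adjoint_resOp (D : Set X) : ContinuousLinearMap.adjoint (resOp D) = extOp D := by
  rw [← adjoint_extOp, ContinuousLinearMap.adjoint_adjoint]

lemma resOp_comp_extOp (D : Set X) : (resOp D).comp (extOp D) = ContinuousLinearMap.id ℂ (L2 D) := by
  ext ξ y
  simp

end

end Vale.Agent.Lib.P093
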