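import Vale.Agent.Lib.P093.CoverBasic

/-!
Mean dimension is invariant under topological conjugacy.
-/

namespace Vale.Agent.Lib.P093

open Filter Topology
open scoped ENNReal

variable {Y Z : Type*}

lemma preimage_orderLE (f : Y → Z) {W : Set (Set Z)} {k : ℕ} (hW : OrderLE W k) :
    OrderLE ((fun s => f ⁻¹' s) '' W) k := by
  intro y F hF hy
  classical
  have : ∀ t ∈ F, ∃ s ∈ W, f ⁻¹' s = t := by
    intro t ht
    obtain ⟨s, hs, hst⟩ := hF ht
    exact ⟨s, hs, hst⟩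
  choose! p hpW hp using this
  have hinj : Set.InjOn p (F : Set (Set Y)) := by
    intro t ht t' ht' hpp
    rw [← hp t ht, ← hp t' ht', hpp]
  have hcard : (F.image p).card = F.card := Finset.card_image_of_injOn hinj
  rw [← hcard]
  refine hW (f y) (F.image p) ?_ ?_
  · intro s hs
    obtain ⟨t, ht, rfl⟩ := Finset.mem_image.1 (Finset.mem_coe.1 hs)
    exact hpW t ht
  · intro s hs
    obtain ⟨t, ht, rfl⟩ := Finset.mem_image.1 hs
    have := hy t ht
    rw [← hp t ht] at this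
    exact this

variable [TopologicalSpace Y] [TopologicalSpace Z]

lemma isFinOpenCover_preimage {f : Y → Z} (hf : Continuous f) {W : Set (Set Z)}
    (hW : IsFinOpenCover W) : IsFinOpenCover ((fun s => f ⁻¹' s) '' W) := by
  refine ⟨hW.1.image _, ?_, ?_⟩
  · rintro _ ⟨s, hs, rfl⟩
    exact (hW.2.1 s hs).preimage hf
  · rw [Set.eq_univ_iff_forall]
    intro y
    have hy : f y ∈ ⋃₀ W := by rw [hW.2.2]; trivial
    obtain ⟨s, hs, hys⟩ := hy
    exact ⟨_, ⟨s, hs, rfl⟩, hys⟩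

lemma coverD_conj_le (e : Y ≃ₜ Z) {g : Y → Y} {g' : Z → Z} (hg' : Continuous g')
    (he : ∀ y, e (g y) = g' (e y)) {V : Set (Set Y)} (hV : IsFinOpenCover V) (N : ℕ) :
    coverD (joinCover g V N)
      ≤ coverD (joinCover g' ((fun s => e.symm ⁻¹' s) '' V) N) := by
  have hV' : IsFinOpenCover ((fun s => e.symm ⁻¹' s) '' V) :=
    isFinOpenCover_preimage e.symm.continuous hV
  obtain ⟨W, hW, hWr, hWo⟩ := coverD_spec (isFinOpenCover_joinCover hg' hV' N)
  refine coverD_le (isFinOpenCover_preimage e.continuous hW) ?_ (preimage_orderLE e hWo)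
  rintro _ ⟨s, hs, rfl⟩
  obtain ⟨t, ⟨c', hc', rfl⟩, hst⟩ := hWr s hs
  have : ∀ j, ∃ c ∈ V, e.symm ⁻¹' c = c' j := fun j => hc' j
  choose c hc hcc using this
  refine ⟨_, ⟨c, hc, rfl⟩, ?_⟩
  intro y hy
  have h1 := hst hy
  simp only [Set.mem_iInter, Set.mem_preimage, Finset.mem_range] at h1 ⊢
  intro j hj
  have h2 := h1 j hj
  rw [← hcc j] at h2
  have hsemi : Function.Semiconj e g g' := he
  have h3 : (g'^[j]) (e y) = e ((g^[j]) y) := (hsemi.iterate_right j y).symm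
  rw [h3] at h2
  simpa using h2

theorem mdim_conj_le (e : Y ≃ₜ Z) {g : Y → Y} {g' : Z → Z} (hg' : Continuous g')
    (he : ∀ y, e (g y) = g' (e y)) : mdim g ≤ mdim g' := by
  unfold mdim
  refine iSup₂_le ?_
  intro V hV
  have hV' : IsFinOpenCover ((fun s => e.symm ⁻¹' s) '' V) :=
    isFinOpenCover_preimage e.symm.continuous hV
  have hpt : ∀ N : ℕ, (coverD (joinCover g V N) : ℝ≥0∞) / (N : ℝ≥0∞)
      ≤ (coverD (joinCover g' ((fun s => e.symm ⁻¹' s) '' V) N) : ℝ≥0∞) / (N : ℝ≥0∞) := by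
    intro N
    have h1 : ((coverD (joinCover g V N) : ℕ) : ℝ≥0∞)
        ≤ ((coverD (joinCover g' ((fun s => e.symm ⁻¹' s) '' V) N) : ℕ) : ℝ≥0∞) := by
      exact_mod_cast coverD_conj_le e hg' he hV N
    exact ENNReal.div_le_div_right h1 _
  refine le_trans (limsup_le_limsup (Eventually.of_forall hpt)) ?_
  exact le_iSup₂ (f := fun (W : Set (Set Z)) (_ : W ∈ {W : Set (Set Z) | IsFinOpenCover W}) =>
    limsup (fun M : ℕ => (coverD (joinCover g' W M) : ℝ≥0∞) / (M : ℝ≥0∞)) atTop) _ hV'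

theorem mdim_conj (e : Y ≃ₜ Z) {g : Y → Y} {g' : Z → Z} (hg : Continuous g)
    (hg' : Continuous g') (he : ∀ y, e (g y) = g' (e y)) : mdim g = mdim g' := by
  refine le_antisymm (mdim_conj_le e hg' he) (mdim_conj_le e.symm hg ?_)
  intro z
  rw [Homeomorph.symm_apply_eq, he, Homeomorph.apply_symm_apply]

end Vale.Agent.Lib.P093
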