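import Vale.Agent.Lib.P093.TowerRC

/-!
The radius of comparison of the concrete crossed product is invariant under topological
conjugacy.
-/

namespace Vale.Agent.Lib.P093

open Filter Topology
open scoped ENNReal NNReal

noncomputable section

section Plain

variable {Y Z : Type*}

/-- Conjugation by the unitary `ℓ²(Y) → ℓ²(Z)` induced by a bijection. -/
def conjOp (e : Y ≃ Z) (T : L2 Y →L[ℂ] L2 Y) : L2 Z →L[ℂ] L2 Z :=
  (pullOp e.symm e.symm.injective).comp (T.comp (pullOp e e.injective))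

lemma conjOp_apply (e : Y ≃ Z) (T : L2 Y →L[ℂ] L2 Y) (η : L2 Z) (z : Z) :
    conjOp e T η z = T (pullOp e e.injective η) (e.symm z) := rfl

lemma pull_pull (e : Y ≃ Z) (ξ : L2 Y) :
    pullOp e e.injective (pullOp e.symm e.symm.injective ξ) = ξ := by
  ext y
  simp

lemma conjOp_mul (e : Y ≃ Z) (T T' : L2 Y →L[ℂ] L2 Y) :
    conjOp e (T * T') = conjOp e T * conjOp e T' := by
  ext1 η
  show pullOp e.symm e.symm.injective (T (T' (pullOp e e.injective η)))
    = pullOp e.symm e.symm.injective (T (pullOp e e.injective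
        (pullOp e.symm e.symm.injective (T' (pullOp e e.injective η)))))
  rw [pull_pull]

lemma conjOp_one (e : Y ≃ Z) : conjOp e (1 : L2 Y →L[ℂ] L2 Y) = 1 := by
  ext η z
  rw [conjOp_apply]
  simp

lemma star_conjOp (e : Y ≃ Z) (T : L2 Y →L[ℂ] L2 Y) : star (conjOp e T) = conjOp e (star T) := by
  rw [ContinuousLinearMap.star_eq_adjoint, ContinuousLinearMap.star_eq_adjoint, conjOp, conjOp,
    ContinuousLinearMap.adjoint_comp, ContinuousLinearMap.adjoint_comp,
    adjoint_pullOp_equiv e, adjoint_pullOp_equiv e.symm]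
  rfl

lemma conjOp_add (e : Y ≃ Z) (T T' : L2 Y →L[ℂ] L2 Y) :
    conjOp e (T + T') = conjOp e T + conjOp e T' := by
  ext1 η
  simp [conjOp]

lemma conjOp_smul (e : Y ≃ Z) (c : ℂ) (T : L2 Y →L[ℂ] L2 Y) :
    conjOp e (c • T) = c • conjOp e T := by
  ext1 η
  simp [conjOp]

lemma continuous_conjOp (e : Y ≃ Z) : Continuous (conjOp e) :=
  continuous_const.clm_comp (continuous_id.clm_comp continuous_const)

lemma conjOp_symm_conjOp (e : Y ≃ Z) (T : L2 Y →L[ℂ] L2 Y) :
    conjOp e.symm (conjOp e T) = T := by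
  ext1 ξ
  show pullOp e e.injective (pullOp e.symm e.symm.injective
    (T (pullOp e e.injective (pullOp e.symm e.symm.injective ξ)))) = T ξ
  rw [pull_pull, pull_pull]

lemma conjOp_conjOp_symm (e : Y ≃ Z) (S : L2 Z →L[ℂ] L2 Z) :
    conjOp e (conjOp e.symm S) = S :=
  conjOp_symm_conjOp e.symm S

end Plain

variable {Y Z : Type*} [TopologicalSpace Y] [TopologicalSpace Z]

lemma conjOp_generator_mem (e : Y ≃ₜ Z) {g : Y ≃ₜ Y} {g' : Z ≃ₜ Z}
    (he : ∀ y, e (g y) = g' (e y)) {T : L2 Y →L[ℂ] L2 Y} (hT : T ∈ generators g) :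
    conjOp e.toEquiv T ∈ generators g' := by
  rcases hT with ⟨f, hf⟩ | hT
  · refine Or.inl ⟨f.comp ⟨e.symm, e.symm.continuous⟩, ?_⟩
    intro η z
    rw [conjOp_apply, hf]
    simp
  · refine Or.inr ?_
    intro η z
    rw [conjOp_apply, hT]
    have h1 : e (g.symm (e.symm z)) = g'.symm z := by
      rw [Homeomorph.eq_symm_apply, ← he, Homeomorph.apply_symm_apply,
        Homeomorph.apply_symm_apply]
    show η (e (g.symm (e.symm z))) = η (g'.symm z)
    rw [h1]

lemma conjOp_mem (e : Y ≃ₜ Z) {g : Y ≃ₜ Y} {g' : Z ≃ₜ Z}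
    (he : ∀ y, e (g y) = g' (e y)) {T : L2 Y →L[ℂ] L2 Y} (hT : T ∈ crossedProduct g) :
    conjOp e.toEquiv T ∈ crossedProduct g' := by
  have hadj : ∀ T ∈ StarAlgebra.adjoin ℂ (generators g),
      conjOp e.toEquiv T ∈ crossedProduct g' := by
    intro T hT
    induction hT using StarAlgebra.adjoin_induction with
    | mem x hx => exact gen_mem (conjOp_generator_mem e he hx)
    | algebraMap r =>
      rw [Algebra.algebraMap_eq_smul_one, conjOp_smul, conjOp_one]
      exact (crossedProduct g').smul_mem (one_mem _) r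
    | add x y _ _ hx hy => rw [conjOp_add]; exact add_mem hx hy
    | mul x y _ _ hx hy => rw [conjOp_mul]; exact mul_mem hx hy
    | star x _ hx => rw [← star_conjOp]; exact star_mem hx
  rw [crossedProduct, ← SetLike.mem_coe, StarSubalgebra.topologicalClosure_coe] at hT
  have := map_mem_closure (continuous_conjOp e.toEquiv) hT (t := (crossedProduct g' : Set _))
    (fun T hT => hadj T hT)
  rwa [(crossedProduct_isClosed g').closure_eq] at this

lemma symm_equivariant (e : Y ≃ₜ Z) {g : Y ≃ₜ Y} {g' : Z ≃ₜ Z}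
    (he : ∀ y, e (g y) = g' (e y)) (z : Z) : e.symm (g' z) = g (e.symm z) := by
  rw [Homeomorph.symm_apply_eq, he, Homeomorph.apply_symm_apply]

/-- The isomorphism of concrete crossed products induced by a conjugacy, as a linear map. -/
def conjL (e : Y ≃ₜ Z) {g : Y ≃ₜ Y} {g' : Z ≃ₜ Z} (he : ∀ y, e (g y) = g' (e y)) :
    (crossedProduct g) →ₗ[ℂ] (crossedProduct g') where
  toFun T := ⟨conjOp e.toEquiv T.1, conjOp_mem e he T.2⟩
  map_add' T T' := Subtype.ext (conjOp_add e.toEquiv T.1 T'.1)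
  map_smul' c T := Subtype.ext (conjOp_smul e.toEquiv c T.1)

theorem cornerData_conj (e : Y ≃ₜ Z) {g : Y ≃ₜ Y} {g' : Z ≃ₜ Z}
    (he : ∀ y, e (g y) = g' (e y)) :
    CornerData 1 (conjL e.symm (symm_equivariant e he)) (conjL e he) where
  pos := Nat.one_pos
  φ_mul x y := Subtype.ext (conjOp_mul e.symm.toEquiv x.1 y.1)
  φ_star x := Subtype.ext (star_conjOp e.symm.toEquiv x.1).symm
  ψ_cont := ((continuous_conjOp e.toEquiv).comp continuous_subtype_val).subtype_mk _
  ψ_star x := Subtype.ext (star_conjOp e.toEquiv x.1).symm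
  ψ_mid s t r := by
    apply Subtype.ext
    show conjOp e.toEquiv (s.1 * conjOp e.symm.toEquiv t.1 * r.1)
      = conjOp e.toEquiv s.1 * t.1 * conjOp e.toEquiv r.1
    rw [conjOp_mul, conjOp_mul]
    congr 2
    exact conjOp_conjOp_symm e.toEquiv t.1
  ψ_φ t := Subtype.ext (conjOp_conjOp_symm e.toEquiv t.1)
  trace τ hτ := by
    have h1 : conjL e.symm (symm_equivariant e he) 1 = 1 :=
      Subtype.ext (conjOp_one e.symm.toEquiv)
    rw [h1, hτ.1]
    simp

theorem rc_conj_le (e : Y ≃ₜ Z) {g : Y ≃ₜ Y} {g' : Z ≃ₜ Z}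
    (he : ∀ y, e (g y) = g' (e y)) : rc (crossedProduct g') ≤ rc (crossedProduct g) := by
  have := rc_corner_le (cornerData_conj e he)
  simpa using this

theorem rc_conj (e : Y ≃ₜ Z) {g : Y ≃ₜ Y} {g' : Z ≃ₜ Z}
    (he : ∀ y, e (g y) = g' (e y)) : rc (crossedProduct g) = rc (crossedProduct g') :=
  le_antisymm (rc_conj_le e.symm (symm_equivariant e he)) (rc_conj_le e he)

end

end Vale.Agent.Lib.P093
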