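import Vale.Agent.Lib.P093.Defs

/-!
Basic facts about `coverD` and `joinCover`.
-/

namespace Vale.Agent.Lib.P093

open Filter Topology
open scoped ENNReal

section Plain

variable {X : Type*}

lemma refines_refl (V : Set (Set X)) : Refines V V := fun s hs => ⟨s, hs, subset_rfl⟩

lemma Refines.trans {W V V' : Set (Set X)} (h1 : Refines W V) (h2 : Refines V V') :
    Refines W V' := by
  intro s hs
  obtain ⟨t, ht, hst⟩ := h1 s hs
  obtain ⟨t', ht', htt'⟩ := h2 t ht
  exact ⟨t', ht', hst.trans htt'⟩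

lemma orderLE_of_finite {V : Set (Set X)} (hV : V.Finite) : OrderLE V hV.toFinset.card := by
  intro x F hF _
  have : F ⊆ hV.toFinset := by
    intro s hs
    exact hV.mem_toFinset.2 (hF hs)
  exact (Finset.card_le_card this).trans (Nat.le_succ _)

lemma joinCover_succ (h : X → X) (U : Set (Set X)) (N : ℕ) :
    joinCover h U (N + 1)
      = Set.image2 (fun s t => s ∩ (h^[N]) ⁻¹' t) (joinCover h U N) U := by
  ext s
  constructor
  · rintro ⟨c, hc, rfl⟩
    refine ⟨_, ⟨c, hc, rfl⟩, c N, hc N, ?_⟩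
    rw [Finset.range_add_one, Finset.set_biInter_insert, Set.inter_comm]
  · rintro ⟨s', ⟨c, hc, rfl⟩, t, ht, rfl⟩
    refine ⟨Function.update c N t, ?_, ?_⟩
    · intro j
      by_cases hj : j = N
      · subst hj
        simpa using ht
      · rw [Function.update_of_ne hj]
        exact hc j
    · rw [Finset.range_add_one, Finset.set_biInter_insert, Set.inter_comm]
      congr 1
      · refine Set.iInter₂_congr ?_
        intro j hj
        have : j ≠ N := (Finset.mem_range.1 hj).ne
        rw [Function.update_of_ne this]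
      · simp

lemma joinCover_finite (h : X → X) {U : Set (Set X)} (hU : U.Finite) (N : ℕ) :
    (joinCover h U N).Finite := by
  induction N with
  | zero =>
    refine Set.Finite.subset (Set.finite_singleton Set.univ) ?_
    rintro s ⟨c, _, rfl⟩
    simp
  | succ k ih =>
    rw [joinCover_succ]
    exact Set.Finite.image2 _ ih hU

lemma joinCover_refines (h : X → X) (U : Set (Set X)) {N N' : ℕ} (hN : N ≤ N') :
    Refines (joinCover h U N') (joinCover h U N) := by
  rintro s ⟨c, hc, rfl⟩
  refine ⟨_, ⟨c, hc, rfl⟩, ?_⟩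
  intro x hx
  simp only [Set.mem_iInter, Set.mem_preimage, Finset.mem_range] at hx ⊢
  intro j hj
  exact hx j (hj.trans_le hN)

end Plain

variable {X : Type*} [TopologicalSpace X]

lemma coverD_spec {V : Set (Set X)} (hV : IsFinOpenCover V) :
    ∃ W : Set (Set X), IsFinOpenCover W ∧ Refines W V ∧ OrderLE W (coverD V) := by
  have hne : {k : ℕ | ∃ W : Set (Set X), IsFinOpenCover W ∧ Refines W V ∧ OrderLE W k}.Nonempty :=
    ⟨_, V, hV, refines_refl V, orderLE_of_finite hV.1⟩
  exact Nat.sInf_mem hne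

lemma coverD_le {V W : Set (Set X)} {k : ℕ} (hW : IsFinOpenCover W) (hr : Refines W V)
    (ho : OrderLE W k) : coverD V ≤ k :=
  Nat.sInf_le ⟨W, hW, hr, ho⟩

lemma coverD_mono {V V' : Set (Set X)} (hV' : IsFinOpenCover V') (hr : Refines V' V) :
    coverD V ≤ coverD V' := by
  obtain ⟨W, hW, hWr, hWo⟩ := coverD_spec hV'
  exact coverD_le hW (hWr.trans hr) hWo

lemma isFinOpenCover_joinCover {h : X → X} (hh : Continuous h) {U : Set (Set X)}
    (hU : IsFinOpenCover U) (N : ℕ) : IsFinOpenCover (joinCover h U N) := by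
  refine ⟨joinCover_finite h hU.1 N, ?_, ?_⟩
  · rintro s ⟨c, hc, rfl⟩
    refine isOpen_biInter_finset ?_
    intro j _
    exact (hU.2.1 _ (hc j)).preimage (hh.iterate j)
  · rw [Set.eq_univ_iff_forall]
    intro x
    have : ∀ j : ℕ, ∃ t ∈ U, (h^[j]) x ∈ t := by
      intro j
      have hx : (h^[j]) x ∈ ⋃₀ U := by rw [hU.2.2]; trivial
      obtain ⟨t, ht, hxt⟩ := hx
      exact ⟨t, ht, hxt⟩
    choose c hc hxc using this
    refine ⟨_, ⟨c, hc, rfl⟩, ?_⟩
    simp only [Set.mem_iInter, Set.mem_preimage]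
    intro j _
    exact hxc j

end Vale.Agent.Lib.P093
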