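import Vale.Agent.Lib.P093.Adjoints

/-!
The generators of the concrete crossed product, and the span of the monomials `M_f S_{h^k}`.
-/

namespace Vale.Agent.Lib.P093

open Filter Topology
open scoped ENNReal NNReal InnerProductSpace

noncomputable section

variable {X : Type*} [TopologicalSpace X]

/-- Translation operator of a homeomorphism: `(S_a ξ)(x) = ξ (a⁻¹ x)`. -/
def shiftOp (a : X ≃ₜ X) : L2 X →L[ℂ] L2 X := pullOp a.symm a.symm.injective

@[simp]
lemma shiftOp_apply (a : X ≃ₜ X) (ξ : L2 X) (x : X) : shiftOp a ξ x = ξ (a.symm x) := rfl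

lemma shiftOp_mul (a b : X ≃ₜ X) : shiftOp a * shiftOp b = shiftOp (a * b) := by
  ext ξ x
  rfl

lemma shiftOp_one : shiftOp (1 : X ≃ₜ X) = 1 := by
  ext ξ x
  rfl

lemma star_shiftOp (a : X ≃ₜ X) : star (shiftOp a) = shiftOp a⁻¹ := by
  rw [ContinuousLinearMap.star_eq_adjoint]
  exact adjoint_pullOp_equiv a.symm.toEquiv

lemma shiftOp_inv_mul (a : X ≃ₜ X) : shiftOp a⁻¹ * shiftOp a = 1 := by
  rw [shiftOp_mul, inv_mul_cancel, shiftOp_one]

lemma shiftOp_mul_inv (a : X ≃ₜ X) : shiftOp a * shiftOp a⁻¹ = 1 := by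
  rw [shiftOp_mul, mul_inv_cancel, shiftOp_one]

lemma shiftOp_pow (a : X ≃ₜ X) (m : ℕ) : shiftOp (a ^ m) = shiftOp a ^ m := by
  induction m with
  | zero => simp [shiftOp_one]
  | succ k ih => rw [pow_succ, pow_succ, ← shiftOp_mul, ih]

variable [CompactSpace X]

/-- Multiplication operator by a continuous function on a compact space. -/
def mulC (f : C(X, ℂ)) : L2 X →L[ℂ] L2 X :=
  mulOp f ‖f‖₊ (fun x => by simpa using f.norm_coe_le_norm x)

@[simp]
lemma mulC_apply (f : C(X, ℂ)) (ξ : L2 X) (x : X) : mulC f ξ x = f x * ξ x := by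
  simp [mulC]

lemma mulC_mem_generators (h : X ≃ₜ X) (f : C(X, ℂ)) : mulC f ∈ generators h :=
  Or.inl ⟨f, fun ξ x => mulC_apply f ξ x⟩

omit [CompactSpace X] in
lemma shiftOp_mem_generators (h : X ≃ₜ X) : shiftOp h ∈ generators h :=
  Or.inr (fun ξ x => shiftOp_apply h ξ x)

lemma eq_mulC_of_spec {T : L2 X →L[ℂ] L2 X} {f : C(X, ℂ)}
    (hT : ∀ (ξ : L2 X) (x : X), T ξ x = f x * ξ x) : T = mulC f := by
  ext ξ x
  rw [hT, mulC_apply]

omit [CompactSpace X] in
lemma eq_shiftOp_of_spec {h : X ≃ₜ X} {T : L2 X →L[ℂ] L2 X}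
    (hT : ∀ (ξ : L2 X) (x : X), T ξ x = ξ (h.symm x)) : T = shiftOp h := by
  ext ξ x
  rw [hT, shiftOp_apply]

lemma star_mulC (f : C(X, ℂ)) : star (mulC f) = mulC (star f) := by
  rw [ContinuousLinearMap.star_eq_adjoint, mulC, adjoint_mulOp]
  ext ξ x
  simp

lemma mulC_mul (f g : C(X, ℂ)) : mulC f * mulC g = mulC (f * g) := by
  ext ξ x
  simp [mul_assoc]

lemma mulC_one : mulC (1 : C(X, ℂ)) = 1 := by
  ext ξ x
  simp

lemma shiftOp_mul_mulC (a : X ≃ₜ X) (f : C(X, ℂ)) :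
    shiftOp a * mulC f = mulC (f.comp ⟨a.symm, a.symm.continuous⟩) * shiftOp a := by
  ext ξ x
  simp

/-- The monomials `M_f S_{h^k}`. -/
def monomials (h : X ≃ₜ X) : Set (L2 X →L[ℂ] L2 X) :=
  {T | ∃ (f : C(X, ℂ)) (k : ℤ), T = mulC f * shiftOp (h ^ k)}

lemma one_mem_monomials (h : X ≃ₜ X) : (1 : L2 X →L[ℂ] L2 X) ∈ monomials h :=
  ⟨1, 0, by rw [zpow_zero, shiftOp_one, mulC_one, mul_one]⟩

lemma mul_mem_monomials {h : X ≃ₜ X} {T T' : L2 X →L[ℂ] L2 X} (hT : T ∈ monomials h)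
    (hT' : T' ∈ monomials h) : T * T' ∈ monomials h := by
  obtain ⟨f, k, rfl⟩ := hT
  obtain ⟨g, l, rfl⟩ := hT'
  refine ⟨f * g.comp ⟨(h ^ k).symm, (h ^ k).symm.continuous⟩, k + l, ?_⟩
  rw [zpow_add, ← shiftOp_mul, ← mulC_mul, mul_assoc, mul_assoc, ← mul_assoc (shiftOp (h ^ k)),
    shiftOp_mul_mulC, mul_assoc]

lemma star_mem_monomials {h : X ≃ₜ X} {T : L2 X →L[ℂ] L2 X} (hT : T ∈ monomials h) :
    star T ∈ monomials h := by
  obtain ⟨f, k, rfl⟩ := hT
  refine ⟨(star f).comp ⟨(h ^ (-k)).symm, (h ^ (-k)).symm.continuous⟩, -k, ?_⟩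
  rw [star_mul, star_shiftOp, star_mulC, ← zpow_neg, shiftOp_mul_mulC]

lemma generators_subset_monomials (h : X ≃ₜ X) : generators h ⊆ monomials h := by
  rintro T (⟨f, hf⟩ | hT)
  · exact ⟨f, 0, by rw [zpow_zero, shiftOp_one, mul_one, eq_mulC_of_spec hf]⟩
  · exact ⟨1, 1, by rw [zpow_one, mulC_one, one_mul, eq_shiftOp_of_spec hT]⟩

lemma star_mem_span_monomials {h : X ≃ₜ X} {T : L2 X →L[ℂ] L2 X}
    (hT : T ∈ Submodule.span ℂ (monomials h)) : star T ∈ Submodule.span ℂ (monomials h) := by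
  induction hT using Submodule.span_induction with
  | mem y hy => exact Submodule.subset_span (star_mem_monomials hy)
  | zero => simp
  | add y z _ _ hy hz => rw [star_add]; exact Submodule.add_mem _ hy hz
  | smul c y _ hy => rw [star_smul]; exact Submodule.smul_mem _ _ hy

lemma adjoin_le_span_monomials (h : X ≃ₜ X) {T : L2 X →L[ℂ] L2 X}
    (hT : T ∈ StarAlgebra.adjoin ℂ (generators h)) : T ∈ Submodule.span ℂ (monomials h) := by
  induction hT using StarAlgebra.adjoin_induction with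
  | mem x hx => exact Submodule.subset_span (generators_subset_monomials h hx)
  | algebraMap r =>
    rw [Algebra.algebraMap_eq_smul_one]
    exact Submodule.smul_mem _ _ (Submodule.subset_span (one_mem_monomials h))
  | add x y _ _ hx hy => exact Submodule.add_mem _ hx hy
  | mul x y _ _ hx hy =>
    have := Submodule.mul_mem_mul hx hy
    rw [Submodule.span_mul_span] at this
    refine Submodule.span_mono ?_ this
    rintro _ ⟨a, ha, b, hb, rfl⟩
    exact mul_mem_monomials ha hb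
  | star x _ hx => exact star_mem_span_monomials hx

end

end Vale.Agent.Lib.P093
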