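import Mathlib

/-!
Definitions for P093 (Phillips-Toms conjecture for minimal homeomorphisms):
radius of comparison (tracial definition), mean dimension, a concrete model of the
crossed product, clopen towers.
-/

namespace Vale.Agent.Lib.P093

open Filter Topology
open scoped ENNReal

noncomputable section

section RadiusOfComparison

variable (A : Type*) [CStarAlgebra A]

/-- A tracial state on the unital C*-algebra `A`: a linear functional that is unital,
positive and tracial. -/
def IsTracialState (τ : A →ₗ[ℂ] ℂ) : Prop :=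
  τ 1 = 1 ∧ (∀ a : A, ∃ t : ℝ, 0 ≤ t ∧ τ (star a * a) = (t : ℂ)) ∧
    ∀ a b : A, τ (a * b) = τ (b * a)

variable {A}

/-- Positive elements of the matrix algebra `M_q(A)`: those of the form `y* y`. -/
def IsPosMat {q : ℕ} (a : Matrix (Fin q) (Fin q) A) : Prop :=
  ∃ y : Matrix (Fin q) (Fin q) A, a = star y * y

/-- `HasRank τ a d` says `d = d_τ(a) = lim_m (τ ⊗ Tr)(a^(1/m))`: there are positive matrices
`c m` with `(c m)^(m+1) = a` (so `c m` is the positive `(m+1)`-th root of `a`) and
`∑ i, τ ((c m) i i)` tends to `d`. -/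
def HasRank (τ : A →ₗ[ℂ] ℂ) {q : ℕ} (a : Matrix (Fin q) (Fin q) A) (d : ℝ) : Prop :=
  ∃ c : ℕ → Matrix (Fin q) (Fin q) A, (∀ m, IsPosMat (c m) ∧ c m ^ (m + 1) = a) ∧
    Tendsto (fun m => ∑ i, τ (c m i i)) atTop (𝓝 (d : ℂ))

/-- Cuntz subequivalence in `M_q(A)` (entrywise topology, which is the norm topology). -/
def CuntzLE {q : ℕ} (a b : Matrix (Fin q) (Fin q) A) : Prop :=
  ∃ x : ℕ → Matrix (Fin q) (Fin q) A, Tendsto (fun k => star (x k) * b * x k) atTop (𝓝 a)

variable (A)

/-- `r ≥ 0` is a comparison bound for `A`. -/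
def IsComparisonBound (r : ℝ) : Prop :=
  0 ≤ r ∧ ∀ (q : ℕ) (a b : Matrix (Fin q) (Fin q) A), IsPosMat a → IsPosMat b →
    (∀ τ : A →ₗ[ℂ] ℂ, IsTracialState A τ →
      ∃ da db : ℝ, HasRank τ a da ∧ HasRank τ b db ∧ da + r < db) →
    CuntzLE a b

/-- The radius of comparison of `A`, in `[0, ∞]`: the infimum of the comparison bounds. -/
def rc : ℝ≥0∞ :=
  sInf {t : ℝ≥0∞ | ∃ r : ℝ, IsComparisonBound A r ∧ t = ENNReal.ofReal r}

end RadiusOfComparison

section MeanDimension

variable {X : Type*} [TopologicalSpace X]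

/-- A finite open cover of `X`, as a finite set of open sets with union `X`. -/
def IsFinOpenCover (W : Set (Set X)) : Prop :=
  W.Finite ∧ (∀ s ∈ W, IsOpen s) ∧ ⋃₀ W = Set.univ

/-- `W` refines `V`. -/
def Refines (W V : Set (Set X)) : Prop :=
  ∀ s ∈ W, ∃ t ∈ V, s ⊆ t

/-- The cover `W` has order at most `k`: no point lies in more than `k + 1` members. -/
def OrderLE (W : Set (Set X)) (k : ℕ) : Prop :=
  ∀ x : X, ∀ F : Finset (Set X), (↑F ⊆ W) → (∀ s ∈ F, x ∈ s) → F.card ≤ k + 1

/-- `D(V)`: the least order of a finite open refinement of `V`. -/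
def coverD (V : Set (Set X)) : ℕ :=
  sInf {k : ℕ | ∃ W : Set (Set X), IsFinOpenCover W ∧ Refines W V ∧ OrderLE W k}

/-- The join of `h^(-j) U` for `0 ≤ j < N`. -/
def joinCover (h : X → X) (U : Set (Set X)) (N : ℕ) : Set (Set X) :=
  {s | ∃ c : ℕ → Set X, (∀ j, c j ∈ U) ∧ s = ⋂ j ∈ Finset.range N, (h^[j]) ⁻¹' (c j)}

/-- Mean dimension of `(X, h)`, in `[0, ∞]` (the limit over `N` exists for every finite
open cover; it is written here as a limsup). -/
def mdim (h : X → X) : ℝ≥0∞ :=
  ⨆ U ∈ {U : Set (Set X) | IsFinOpenCover U},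
    limsup (fun N : ℕ => (coverD (joinCover h U N) : ℝ≥0∞) / (N : ℝ≥0∞)) atTop

/-- `h` is a minimal homeomorphism: every orbit is dense. -/
def IsMinimalHomeo (h : X ≃ₜ X) : Prop :=
  ∀ x : X, Dense (Set.range fun k : ℤ => (h ^ k) x)

/-- `U` is the base of a clopen tower of height `n` for `h`, with return map `g`:
`X` is the disjoint union of `h^j(U)`, `0 ≤ j < n`, and `g = h^n` on `U`. -/
structure IsTower (h : X ≃ₜ X) (n : ℕ) (U : Set X) (g : U ≃ₜ U) : Prop where
  pos : 0 < n
  isClopen : IsClopen U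
  cover : ∀ x : X, ∃ j < n, ∃ y ∈ U, (h^[j]) y = x
  disjoint : ∀ i < n, ∀ j < n, ∀ y ∈ U, ∀ z ∈ U, (h^[i]) y = (h^[j]) z → i = j
  return_map : ∀ y : U, ((g y : U) : X) = (h^[n]) y

end MeanDimension

section CrossedProduct

universe u

/-- The Hilbert space `ℓ²(X)` of square-summable functions `X → ℂ` (on the underlying
set of `X`), as a type. -/
def Ell2 (X : Type u) : Type u := lp (fun _ : X => ℂ) 2

instance Ell2.instNormedAddCommGroup (X : Type u) : NormedAddCommGroup (Ell2 X) :=
  (lp.normedAddCommGroup : NormedAddCommGroup (lp (fun _ : X => ℂ) 2))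

instance Ell2.instInnerProductSpace (X : Type u) : InnerProductSpace ℂ (Ell2 X) :=
  (lp.instInnerProductSpace : InnerProductSpace ℂ (lp (fun _ : X => ℂ) 2))

instance Ell2.instCompleteSpace (X : Type u) : CompleteSpace (Ell2 X) :=
  (lp.completeSpace : CompleteSpace (lp (fun _ : X => ℂ) 2))

/-- The value `ξ(x)` of an element `ξ` of `ℓ²(X)` at the point `x`. -/
def Ell2.coord {X : Type u} (ξ : Ell2 X) (x : X) : ℂ :=
  (show lp (fun _ : X => ℂ) 2 from ξ) x

/-- The C*-algebra `B(ℓ²(X))` of bounded operators on `ℓ²(X)`, as a type. -/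
@[instance_reducible] def Op (X : Type u) : Type u := Ell2 X →L[ℂ] Ell2 X

instance Op.instCStarAlgebra (X : Type u) : CStarAlgebra (Op X) :=
  instCStarAlgebraContinuousLinearMapComplexIdOfCompleteSpace (E := Ell2 X)

/-- The vector `T ξ`. -/
def Op.app {X : Type u} (T : Op X) (ξ : Ell2 X) : Ell2 X :=
  (show Ell2 X →L[ℂ] Ell2 X from T) ξ

variable {X : Type u} [TopologicalSpace X]

/-- The generators of the crossed product inside `B(ℓ²(X))`: the multiplication operators
by continuous functions, and the unitary `(u ξ)(x) = ξ (h⁻¹ x)` implementing `h`. -/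
def covGenerators (h : X ≃ₜ X) : Set (Op X) :=
  {T | (∃ f : C(X, ℂ), ∀ (ξ : Ell2 X) (x : X), (T.app ξ).coord x = f x * ξ.coord x) ∨
    (∀ (ξ : Ell2 X) (x : X), (T.app ξ).coord x = ξ.coord (h.symm x))}

/-- The norm-closed star subalgebra of `B(ℓ²(X))` generated by `covGenerators h`. -/
def crossedProductAlg (h : X ≃ₜ X) : StarSubalgebra ℂ (Op X) :=
  (StarAlgebra.adjoin ℂ (covGenerators h)).topologicalClosure

/-- Concrete model of `C(X) ⋊_h ℤ`: the C*-subalgebra of `B(ℓ²(X))` generated by the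
multiplication operators and the unitary implementing `h`, as a type. -/
def CrossedProduct (h : X ≃ₜ X) : Type u := crossedProductAlg h

instance CrossedProduct.instCStarAlgebra (h : X ≃ₜ X) : CStarAlgebra (CrossedProduct h) :=
  StarSubalgebra.cstarAlgebra (crossedProductAlg h)
    (h_closed := StarSubalgebra.isClosed_topologicalClosure _)

end CrossedProduct

end

end Vale.Agent.Lib.P093
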