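import Vale.Agent.Lib.P093.Scaling

/-!
A failure of `rc ≥ mdim / 2` for a system with arbitrarily high clopen towers is amplified
without bound on the bases of the towers.
-/

namespace Vale.Agent.Lib.P093

open Filter Topology
open scoped ENNReal

universe u

variable {X : Type u} [TopologicalSpace X] [CompactSpace X]

theorem gap_amplification [Infinite X] (h : X ≃ₜ X) (hmin : IsMinimalHomeo h)
    (htow : ∀ N : ℕ, ∃ n, N ≤ n ∧ ∃ (U : Set X) (g : U ≃ₜ U), IsTower h n U g)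
    (hlt : rc (CrossedProduct h) < mdim h / 2) (c : ℝ≥0∞) (hc : c ≠ ⊤) :
    ∃ (n : ℕ) (U : Set X) (g : U ≃ₜ U), IsTower h n U g ∧ CompactSpace U ∧ Infinite U ∧
      IsMinimalHomeo g ∧ rc (CrossedProduct g) + c < mdim g / 2 := by
  set a := rc (CrossedProduct h) with ha
  set b := mdim h / 2 with hb
  have hat : a ≠ ⊤ := ne_top_of_lt hlt
  set d := b - a with hd
  have hd0 : d ≠ 0 := (tsub_pos_iff_lt.2 hlt).ne'
  have hab : a + d = b := add_tsub_cancel_of_le hlt.le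
  obtain ⟨N, hN⟩ := ENNReal.exists_nat_mul_gt hd0 hc
  obtain ⟨n, hNn, U, g, ht⟩ := htow N
  obtain ⟨e1, e2, -, -, hg⟩ := tower_scaling ht
  refine ⟨n, U, g, ht, ht.compactSpace, ht.infinite, hg hmin, ?_⟩
  have hnd : c < (n : ℝ≥0∞) * d := by
    refine hN.trans_le ?_
    gcongr
  have hna : (n : ℝ≥0∞) * a ≠ ⊤ := ENNReal.mul_ne_top (ENNReal.natCast_ne_top n) hat
  calc rc (CrossedProduct g) + c = (n : ℝ≥0∞) * a + c := by rw [e1]
    _ < (n : ℝ≥0∞) * a + (n : ℝ≥0∞) * d := ENNReal.add_lt_add_left hna hnd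
    _ = (n : ℝ≥0∞) * b := by rw [← mul_add, hab]
    _ = mdim g / 2 := by rw [e2, hb, mul_div_assoc]

end Vale.Agent.Lib.P093
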