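import Vale.Agent.Lib.P093.TowerMdim

/-!
The limsup comparison and `mdim (X, h) ≤ mdim (U, g) / n` for towers.
-/

namespace Vale.Agent.Lib.P093

open Filter Topology
open scoped ENNReal

lemma limsup_div_le (a b : ℕ → ℕ) (n : ℕ) (hn : 0 < n) (hab : ∀ N, a N ≤ b (N / n + 2)) :
    limsup (fun N : ℕ => (a N : ℝ≥0∞) / (N : ℝ≥0∞)) atTop
      ≤ limsup (fun M : ℕ => (b M : ℝ≥0∞) / (M : ℝ≥0∞)) atTop / (n : ℝ≥0∞) := by
  set φ : ℕ → ℕ := fun N => N / n + 2 with hφdef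
  set G : ℕ → ℝ≥0∞ := fun M => (b M : ℝ≥0∞) / (M : ℝ≥0∞) with hGdef
  set v : ℕ → ℝ≥0∞ := fun N => (n : ℝ≥0∞)⁻¹ + 2 * (N : ℝ≥0∞)⁻¹ with hvdef
  have hn0 : (n : ℝ≥0∞) ≠ 0 := by exact_mod_cast hn.ne'
  have hnt : (n : ℝ≥0∞) ≠ ⊤ := ENNReal.natCast_ne_top n
  have hpt : ∀ᶠ N in atTop, (a N : ℝ≥0∞) / (N : ℝ≥0∞) ≤ ((G ∘ φ) * v) N := by
    filter_upwards [eventually_ge_atTop 1] with N hN
    have hN0 : (N : ℝ≥0∞) ≠ 0 := by exact_mod_cast (Nat.one_le_iff_ne_zero.1 hN)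
    have hNt : (N : ℝ≥0∞) ≠ ⊤ := ENNReal.natCast_ne_top N
    have hφ0 : ((φ N : ℕ) : ℝ≥0∞) ≠ 0 := by
      have : φ N ≠ 0 := by simp [hφdef]
      exact_mod_cast this
    have hφt : ((φ N : ℕ) : ℝ≥0∞) ≠ ⊤ := ENNReal.natCast_ne_top _
    have h1 : ((φ N : ℕ) : ℝ≥0∞) ≤ (N : ℝ≥0∞) * v N := by
      have hdiv : ((N / n : ℕ) : ℝ≥0∞) ≤ (N : ℝ≥0∞) * (n : ℝ≥0∞)⁻¹ := by
        rw [← div_eq_mul_inv, ENNReal.le_div_iff_mul_le (Or.inl hn0) (Or.inl hnt)]
        exact_mod_cast Nat.div_mul_le_self N n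
      simp only [hφdef, hvdef, Nat.cast_add, Nat.cast_ofNat, mul_add]
      refine add_le_add hdiv ?_
      rw [mul_left_comm, ENNReal.mul_inv_cancel hN0 hNt, mul_one]
    calc (a N : ℝ≥0∞) / (N : ℝ≥0∞) ≤ (b (φ N) : ℝ≥0∞) / (N : ℝ≥0∞) :=
          ENNReal.div_le_div_right (by exact_mod_cast hab N) _
      _ = G (φ N) * (((φ N : ℕ) : ℝ≥0∞) / (N : ℝ≥0∞)) := by
          simp only [hGdef]
          rw [div_eq_mul_inv, div_eq_mul_inv, div_eq_mul_inv, mul_assoc,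
            ← mul_assoc ((φ N : ℕ) : ℝ≥0∞)⁻¹, ENNReal.inv_mul_cancel hφ0 hφt, one_mul]
      _ ≤ G (φ N) * v N := by
          gcongr
          rw [ENNReal.div_le_iff_le_mul (Or.inl hN0) (Or.inl hNt), mul_comm]
          exact h1
  have hv : Tendsto v atTop (𝓝 ((n : ℝ≥0∞)⁻¹)) := by
    have := (ENNReal.Tendsto.const_mul (a := 2) ENNReal.tendsto_inv_nat_nhds_zero
      (Or.inr (by norm_num))).const_add ((n : ℝ≥0∞)⁻¹)
    simpa using this
  have hvl : limsup v atTop = (n : ℝ≥0∞)⁻¹ := hv.limsup_eq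
  have hφ : Tendsto φ atTop atTop := by
    refine tendsto_atTop.2 fun B => ?_
    filter_upwards [eventually_ge_atTop (n * B)] with N hN
    have : B ≤ N / n := (Nat.le_div_iff_mul_le hn).2 (by rwa [Nat.mul_comm] at hN)
    simp only [hφdef]
    omega
  have hG : limsup (G ∘ φ) atTop ≤ limsup G atTop := by
    rw [limsup_comp]
    exact limsup_le_limsup_of_le hφ
  calc limsup (fun N : ℕ => (a N : ℝ≥0∞) / (N : ℝ≥0∞)) atTop
      ≤ limsup ((G ∘ φ) * v) atTop := limsup_le_limsup hpt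
    _ ≤ limsup (G ∘ φ) atTop * limsup v atTop :=
        ENNReal.limsup_mul_le' (Or.inr (by rw [hvl]; exact ENNReal.inv_ne_top.2 hn0))
          (Or.inr (by rw [hvl]; exact ENNReal.inv_ne_zero.2 hnt))
    _ ≤ limsup G atTop * (n : ℝ≥0∞)⁻¹ := by
        rw [hvl]
        gcongr
    _ = limsup G atTop / (n : ℝ≥0∞) := (div_eq_mul_inv _ _).symm

variable {X : Type*} [TopologicalSpace X] {h : X ≃ₜ X} {n : ℕ} {U : Set X} {g : U ≃ₜ U}

/-- For a clopen tower of height `n` with base `U` and return map `g`,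
`mdim (X, h) ≤ mdim (U, g) / n`. -/
theorem mdim_tower_le (ht : IsTower h n U g) : mdim h ≤ mdim g / (n : ℝ≥0∞) := by
  unfold mdim
  refine iSup₂_le ?_
  intro V hV
  have hV' : IsFinOpenCover (restrictCover U (joinCover h V n)) :=
    isFinOpenCover_restrictCover U (isFinOpenCover_joinCover h.continuous hV n)
  have hn := ht.pos
  refine (limsup_div_le (fun N => coverD (joinCover h V N))
    (fun M => coverD (joinCover g (restrictCover U (joinCover h V n)) M)) n hn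
    (fun N => ht.coverD_join_le hV ?_)).trans ?_
  · have h1 := Nat.div_add_mod N n
    have h2 := Nat.mod_lt N hn
    rw [Nat.mul_add]
    generalize n * (N / n) = P at h1 ⊢
    omega
  · refine ENNReal.div_le_div_right ?_ _
    exact le_iSup₂ (f := fun (W : Set (Set U)) (_ : W ∈ {W : Set (Set U) | IsFinOpenCover W}) =>
      limsup (fun M : ℕ => (coverD (joinCover g W M) : ℝ≥0∞) / (M : ℝ≥0∞)) atTop) _ hV'

end Vale.Agent.Lib.P093
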