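import Vale.Agent.Lib.P093.TowerRC
import Vale.Agent.Lib.P093.MdimLimsup

/-!
Amplification along clopen towers: an additive error in a lower bound for the radius of
comparison by half the mean dimension disappears in the presence of arbitrarily high towers.
-/

namespace Vale.Agent.Lib.P093

open Filter Topology
open scoped ENNReal

variable {X : Type*} [TopologicalSpace X] [CompactSpace X]

/-- One tower: the defect of the base is divided by the height. -/
theorem tower_step {h : X ≃ₜ X} {n : ℕ} {U : Set X} {g : U ≃ₜ U} (ht : IsTower h n U g)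
    {c : ℝ≥0∞} (hg : mdim g / 2 ≤ rc (crossedProduct g) + c) :
    mdim h / 2 ≤ rc (crossedProduct h) + c / (n : ℝ≥0∞) := by
  have hn0 : (n : ℝ≥0∞) ≠ 0 := by exact_mod_cast ht.pos.ne'
  have hnt : (n : ℝ≥0∞) ≠ ⊤ := ENNReal.natCast_ne_top n
  calc mdim h / 2 ≤ mdim g / (n : ℝ≥0∞) / 2 := ENNReal.div_le_div_right (mdim_tower_le ht) _
    _ = mdim g / 2 / (n : ℝ≥0∞) := by
        simp only [div_eq_mul_inv]
        rw [mul_right_comm]
    _ ≤ (rc (crossedProduct g) + c) / (n : ℝ≥0∞) := ENNReal.div_le_div_right hg _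
    _ ≤ ((n : ℝ≥0∞) * rc (crossedProduct h) + c) / (n : ℝ≥0∞) :=
        ENNReal.div_le_div_right (add_le_add_left (rc_tower_le ht) c) _
    _ = rc (crossedProduct h) + c / (n : ℝ≥0∞) := by
        rw [ENNReal.add_div, mul_comm, ENNReal.mul_div_cancel_right hn0 hnt]

/-- Amplification: if `(X, h)` has clopen towers of arbitrarily large height whose bases
satisfy `mdim / 2 ≤ rc + c` for one finite constant `c`, then `mdim / 2 ≤ rc` for `(X, h)`. -/
theorem tower_amplification (h : X ≃ₜ X) (c : ℝ≥0∞) (hc : c ≠ ⊤)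
    (H : ∀ N : ℕ, ∃ n, N ≤ n ∧ ∃ (U : Set X) (g : U ≃ₜ U), IsTower h n U g ∧
      mdim g / 2 ≤ rc (crossedProduct g) + c) :
    mdim h / 2 ≤ rc (crossedProduct h) := by
  have key : ∀ N : ℕ, 1 ≤ N → mdim h / 2 ≤ rc (crossedProduct h) + c * (N : ℝ≥0∞)⁻¹ := by
    intro N hN
    obtain ⟨n, hNn, U, g, ht, hg⟩ := H N
    refine (tower_step ht hg).trans ?_
    rw [div_eq_mul_inv]
    gcongr
  have hlim : Tendsto (fun N : ℕ => rc (crossedProduct h) + c * (N : ℝ≥0∞)⁻¹) atTop
      (𝓝 (rc (crossedProduct h) + c * 0)) :=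
    (ENNReal.Tendsto.const_mul ENNReal.tendsto_inv_nat_nhds_zero (Or.inr hc)).const_add _
  rw [mul_zero, add_zero] at hlim
  refine ge_of_tendsto hlim ?_
  filter_upwards [eventually_ge_atTop 1] with N hN
  exact key N hN

end Vale.Agent.Lib.P093
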