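import Vale.Agent.Lib.P093.Raw

/-!
Concrete operators on `ℓ²`: multiplication operators, pull-backs along injective maps,
extension by zero; their adjoints and algebraic relations.
-/

namespace Vale.Agent.Lib.P093

open Filter Topology
open scoped ENNReal NNReal InnerProductSpace

noncomputable section

variable {X Y Z : Type*}

lemma two_toReal_pos : 0 < (2 : ℝ≥0∞).toReal := by norm_num

/-- Multiplication operator on `ℓ²(X)` by a bounded function. -/
def mulOp (f : X → ℂ) (K : ℝ≥0) (hf : ∀ x, ‖f x‖ ≤ K) : L2 X →L[ℂ] L2 X :=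
  lp.mapCLM 2 (fun x => f x • ContinuousLinearMap.id ℂ ℂ) K.coe_nonneg
    (fun x => by
      refine (norm_smul_le _ _).trans ?_
      refine (mul_le_mul_of_nonneg_left ContinuousLinearMap.norm_id_le (norm_nonneg _)).trans ?_
      simpa using hf x)

@[simp]
lemma mulOp_apply (f : X → ℂ) (K : ℝ≥0) (hf : ∀ x, ‖f x‖ ≤ K) (ξ : L2 X) (x : X) :
    mulOp f K hf ξ x = f x * ξ x := by
  simp [mulOp]

/-- Pull-back along an injective map, `ℓ²(Y) → ℓ²(X)`. -/
def pullOp (f : X → Y) (hf : Function.Injective f) : L2 Y →L[ℂ] L2 X :=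
  LinearMap.mkContinuous
    { toFun := fun ξ => ⟨fun x => ξ (f x),
        (memℓp_gen_iff two_toReal_pos).2
          (((memℓp_gen_iff two_toReal_pos).1 (lp.memℓp ξ)).comp_injective hf)⟩
      map_add' := fun ξ η => by ext x; rfl
      map_smul' := fun c ξ => by ext x; rfl }
    1
    (fun ξ => by
      rw [one_mul]
      refine lp.norm_le_of_tsum_le two_toReal_pos (norm_nonneg _) ?_
      rw [lp.norm_rpow_eq_tsum two_toReal_pos ξ]
      exact tsum_comp_le_tsum_of_inj ((memℓp_gen_iff two_toReal_pos).1 (lp.memℓp ξ))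
        (fun y => by positivity) hf)

@[simp]
lemma pullOp_apply (f : X → Y) (hf : Function.Injective f) (ξ : L2 Y) (x : X) :
    pullOp f hf ξ x = ξ (f x) := rfl

/-- The function obtained from `ξ : D → ℂ` by extension by zero. -/
def ext0 (D : Set X) (ξ : D → ℂ) (x : X) : ℂ :=
  open Classical in if hx : x ∈ D then ξ ⟨x, hx⟩ else 0

lemma ext0_mem (D : Set X) (ξ : D → ℂ) {x : X} (hx : x ∈ D) : ext0 D ξ x = ξ ⟨x, hx⟩ := by
  simp [ext0, hx]

@[simp]
lemma ext0_coe (D : Set X) (ξ : D → ℂ) (y : D) : ext0 D ξ y = ξ y := by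
  simp [ext0]

lemma ext0_not_mem (D : Set X) (ξ : D → ℂ) {x : X} (hx : x ∉ D) : ext0 D ξ x = 0 := by
  simp [ext0, hx]

lemma ext0_add (D : Set X) (ξ η : D → ℂ) : ext0 D (ξ + η) = ext0 D ξ + ext0 D η := by
  funext x
  by_cases hx : x ∈ D
  · simp [ext0, hx]
  · simp [ext0, hx]

lemma ext0_smul (D : Set X) (c : ℂ) (ξ : D → ℂ) : ext0 D (c • ξ) = c • ext0 D ξ := by
  funext x
  by_cases hx : x ∈ D
  · simp [ext0, hx]
  · simp [ext0, hx]

/-- Extension by zero, `ℓ²(D) → ℓ²(X)`. -/
def extOp (D : Set X) : L2 D →L[ℂ] L2 X :=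
  LinearMap.mkContinuous
    { toFun := fun ξ => ⟨ext0 D ξ, by
        refine (memℓp_gen_iff two_toReal_pos).2 ?_
        refine (Function.Injective.summable_iff (g := (Subtype.val : D → X))
          Subtype.val_injective ?_).1 ?_
        · intro x hx
          have : x ∉ D := fun h => hx ⟨⟨x, h⟩, rfl⟩
          simp [ext0_not_mem D _ this]
        · have := (memℓp_gen_iff two_toReal_pos).1 (lp.memℓp ξ)
          refine this.congr ?_
          intro y
          simp⟩
      map_add' := fun ξ η => by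
        apply lp.ext
        funext x
        show ext0 D (⇑ξ + ⇑η) x = ext0 D ξ x + ext0 D η x
        rw [ext0_add]
        rfl
      map_smul' := fun c ξ => by
        apply lp.ext
        funext x
        show ext0 D (c • ⇑ξ) x = c • ext0 D ξ x
        rw [ext0_smul]
        rfl }
    1
    (fun ξ => by
      rw [one_mul]
      refine lp.norm_le_of_tsum_le two_toReal_pos (norm_nonneg _) ?_
      rw [lp.norm_rpow_eq_tsum two_toReal_pos ξ]
      refine le_of_eq ?_
      have := Function.Injective.tsum_eq (g := (Subtype.val : D → X)) Subtype.val_injective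
        (f := fun x => ‖ext0 D ξ x‖ ^ (2 : ℝ≥0∞).toReal) ?_
      · exact this.symm.trans (tsum_congr fun y => by simp)
      · intro x hx
        by_contra hx'
        have : x ∉ D := fun h => hx' ⟨⟨x, h⟩, rfl⟩
        simp [ext0_not_mem D _ this] at hx)

lemma extOp_apply (D : Set X) (ξ : L2 D) (x : X) : extOp D ξ x = ext0 D ξ x := rfl

lemma extOp_apply_mem (D : Set X) (ξ : L2 D) {x : X} (hx : x ∈ D) :
    extOp D ξ x = ξ ⟨x, hx⟩ := ext0_mem D _ hx

@[simp]
lemma extOp_apply_coe (D : Set X) (ξ : L2 D) (y : D) : extOp D ξ y = ξ y := ext0_coe D _ y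

lemma extOp_apply_not_mem (D : Set X) (ξ : L2 D) {x : X} (hx : x ∉ D) :
    extOp D ξ x = 0 := ext0_not_mem D _ hx

end

end Vale.Agent.Lib.P093
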