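import Vale.Agent.Lib.P093.RCTransfer

/-!
Abstract transfer of comparison bounds from a full corner `B` of a unital C*-algebra `A`
to `A`, when `A` is an `n × n` matrix algebra over the corner (matrix units `v i`).
-/

namespace Vale.Agent.Lib.P093

open Filter Topology
open scoped ENNReal

noncomputable section MatrixTransfer

variable {A B : Type*} [CStarAlgebra A] [CStarAlgebra B]

/-- Corner data together with partial isometries `v i` from the corner projection `φ 1`
onto pairwise orthogonal projections summing to `1`. -/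
structure MatrixData (n : ℕ) (φ : B →ₗ[ℂ] A) (ψ : A →ₗ[ℂ] B) (v : Fin n → A) : Prop where
  corner : CornerData n φ ψ
  φ_cont : Continuous φ
  φ_ψ : ∀ x, φ (ψ x) = φ 1 * x * φ 1
  v_p : ∀ i, v i * φ 1 = v i
  v_orth : ∀ i j, star (v i) * v j = if i = j then φ 1 else 0
  v_sum : ∑ i, v i * star (v i) = 1

variable {n : ℕ} {φ : B →ₗ[ℂ] A} {ψ : A →ₗ[ℂ] B} {v : Fin n → A}

namespace MatrixData

lemma psi_mul (h : MatrixData n φ ψ v) (x y : A) : ψ (x * φ 1 * y) = ψ x * ψ y := by
  have := h.corner.ψ_mid x 1 y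
  rwa [mul_one] at this

lemma p_star (h : MatrixData n φ ψ v) : star (φ 1) = φ 1 := by
  rw [← h.corner.φ_star, star_one]

lemma p_v (h : MatrixData n φ ψ v) (i : Fin n) : φ 1 * star (v i) = star (v i) := by
  have := congrArg star (h.v_p i)
  rwa [star_mul, h.p_star] at this

lemma psi_sandwich (h : MatrixData n φ ψ v) (x y : A) :
    ∑ k, ψ (x * v k) * ψ (star (v k) * y) = ψ (x * y) := by
  calc ∑ k, ψ (x * v k) * ψ (star (v k) * y)
      = ∑ k, ψ (x * (v k * star (v k)) * y) := by
        refine Finset.sum_congr rfl fun k _ => ?_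
        rw [← h.psi_mul]
        congr 1
        rw [mul_assoc x (v k) (φ 1), h.v_p]
        simp only [mul_assoc]
    _ = ψ (x * (∑ k, v k * star (v k)) * y) := by
        rw [Finset.mul_sum, Finset.sum_mul, map_sum]
    _ = ψ (x * y) := by rw [h.v_sum, mul_one]

end MatrixData

/-- The image of a matrix over `A` in matrices over the corner `B`. -/
def blow (ψ : A →ₗ[ℂ] B) (v : Fin n → A) {q : ℕ} (a : Matrix (Fin q) (Fin q) A) :
    Matrix (Fin q × Fin n) (Fin q × Fin n) B :=
  fun I J => ψ (star (v I.2) * a I.1 J.1 * v J.2)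

lemma blow_apply (ψ : A →ₗ[ℂ] B) (v : Fin n → A) {q : ℕ} (a : Matrix (Fin q) (Fin q) A)
    (I J : Fin q × Fin n) : blow ψ v a I J = ψ (star (v I.2) * a I.1 J.1 * v J.2) := rfl

lemma blow_mul (h : MatrixData n φ ψ v) {q : ℕ} (a b : Matrix (Fin q) (Fin q) A) :
    blow ψ v (a * b) = blow ψ v a * blow ψ v b := by
  ext I J
  rw [Matrix.mul_apply, Fintype.sum_prod_type]
  simp only [blow_apply]
  have inner : ∀ m : Fin q, ∑ k, ψ (star (v I.2) * a I.1 m * v k) * ψ (star (v k) * b m J.1 * v J.2)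
      = ψ (star (v I.2) * a I.1 m * (b m J.1 * v J.2)) := by
    intro m
    have := h.psi_sandwich (star (v I.2) * a I.1 m) (b m J.1 * v J.2)
    rw [← this]
    refine Finset.sum_congr rfl fun k _ => ?_
    rw [mul_assoc (star (v k))]
  simp only [inner]
  rw [← map_sum]
  congr 1
  rw [Matrix.mul_apply, Finset.mul_sum, Finset.sum_mul]
  refine Finset.sum_congr rfl fun m _ => ?_
  simp only [mul_assoc]

lemma blow_star (h : MatrixData n φ ψ v) {q : ℕ} (a : Matrix (Fin q) (Fin q) A) :
    blow ψ v (star a) = star (blow ψ v a) := by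
  ext I J
  rw [Matrix.star_apply, blow_apply, blow_apply, ← h.corner.ψ_star, Matrix.star_apply]
  congr 1
  simp only [star_mul, star_star, mul_assoc]

lemma blow_pow_succ (h : MatrixData n φ ψ v) {q : ℕ} (a : Matrix (Fin q) (Fin q) A) (m : ℕ) :
    blow ψ v (a ^ (m + 1)) = blow ψ v a ^ (m + 1) := by
  induction m with
  | zero => simp
  | succ k ih => rw [pow_succ, blow_mul h, ih, ← pow_succ]

/-- `blow`, reindexed by `Fin (q * n)`. -/
def blowFin (ψ : A →ₗ[ℂ] B) (v : Fin n → A) {q : ℕ} (a : Matrix (Fin q) (Fin q) A) :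
    Matrix (Fin (q * n)) (Fin (q * n)) B :=
  (blow ψ v a).submatrix finProdFinEquiv.symm finProdFinEquiv.symm

lemma blowFin_mul (h : MatrixData n φ ψ v) {q : ℕ} (a b : Matrix (Fin q) (Fin q) A) :
    blowFin ψ v (a * b) = blowFin ψ v a * blowFin ψ v b := by
  unfold blowFin
  rw [blow_mul h, Matrix.submatrix_mul_equiv]

lemma blowFin_star (h : MatrixData n φ ψ v) {q : ℕ} (a : Matrix (Fin q) (Fin q) A) :
    blowFin ψ v (star a) = star (blowFin ψ v a) := by
  unfold blowFin
  rw [blow_star h, Matrix.star_eq_conjTranspose, Matrix.star_eq_conjTranspose,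
    Matrix.conjTranspose_submatrix]

lemma blowFin_pow_succ (h : MatrixData n φ ψ v) {q : ℕ} (a : Matrix (Fin q) (Fin q) A) (m : ℕ) :
    blowFin ψ v (a ^ (m + 1)) = blowFin ψ v a ^ (m + 1) := by
  induction m with
  | zero => simp
  | succ k ih => rw [pow_succ, blowFin_mul h, ih, ← pow_succ]

lemma isPosMat_blowFin (h : MatrixData n φ ψ v) {q : ℕ} {a : Matrix (Fin q) (Fin q) A}
    (ha : IsPosMat a) : IsPosMat (blowFin ψ v a) := by
  obtain ⟨y, rfl⟩ := ha
  exact ⟨blowFin ψ v y, by rw [blowFin_mul h, blowFin_star h]⟩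

/-- The tracial state of `A` induced by a tracial state of the corner. -/
def matTrace (ψ : A →ₗ[ℂ] B) (v : Fin n → A) (σ : B →ₗ[ℂ] ℂ) : A →ₗ[ℂ] ℂ where
  toFun x := (n : ℂ)⁻¹ * ∑ k, σ (ψ (star (v k) * x * v k))
  map_add' x y := by
    simp only [mul_add, add_mul, map_add, Finset.sum_add_distrib]
  map_smul' c x := by
    simp only [mul_smul_comm, smul_mul_assoc, map_smul, smul_eq_mul, RingHom.id_apply,
      ← Finset.mul_sum]
    ring

lemma matTrace_apply (ψ : A →ₗ[ℂ] B) (v : Fin n → A) (σ : B →ₗ[ℂ] ℂ) (x : A) :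
    matTrace ψ v σ x = (n : ℂ)⁻¹ * ∑ k, σ (ψ (star (v k) * x * v k)) := rfl

lemma sum_eq_matTrace (h : MatrixData n φ ψ v) (σ : B →ₗ[ℂ] ℂ) (x : A) :
    ∑ k, σ (ψ (star (v k) * x * v k)) = (n : ℂ) * matTrace ψ v σ x := by
  have hn : (n : ℂ) ≠ 0 := by exact_mod_cast h.corner.pos.ne'
  rw [matTrace_apply, ← mul_assoc, mul_inv_cancel₀ hn, one_mul]

lemma matTrace_isTracialState (h : MatrixData n φ ψ v) {σ : B →ₗ[ℂ] ℂ}
    (hσ : IsTracialState B σ) : IsTracialState A (matTrace ψ v σ) := by
  have hn : (n : ℂ) ≠ 0 := by exact_mod_cast h.corner.pos.ne'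
  have expand : ∀ (x y : A) (k : Fin n), ψ (star (v k) * (x * y) * v k)
      = ∑ m, ψ (star (v k) * x * v m) * ψ (star (v m) * y * v k) := by
    intro x y k
    have := h.psi_sandwich (star (v k) * x) (y * v k)
    rw [show star (v k) * (x * y) * v k = star (v k) * x * (y * v k) by simp only [mul_assoc],
      ← this]
    refine Finset.sum_congr rfl fun m _ => ?_
    rw [mul_assoc (star (v m))]
  refine ⟨?_, ?_, ?_⟩
  · rw [matTrace_apply]
    have : ∀ k : Fin n, σ (ψ (star (v k) * v k)) = 1 := by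
      intro k
      rw [h.v_orth, if_pos rfl, h.corner.ψ_φ, hσ.1]
    simp only [mul_one, this, Finset.sum_const, Finset.card_univ, Fintype.card_fin, nsmul_eq_mul]
    exact inv_mul_cancel₀ hn
  · intro a
    have hw : ∀ (k m : Fin n), ∃ t : ℝ, 0 ≤ t ∧
        σ (ψ (star (v k) * star a * v m) * ψ (star (v m) * a * v k)) = (t : ℂ) := by
      intro k m
      obtain ⟨t, ht, hta⟩ := hσ.2.1 (ψ (star (v m) * a * v k))
      refine ⟨t, ht, ?_⟩
      rw [← hta, ← h.corner.ψ_star]
      congr 3
      simp only [star_mul, star_star, mul_assoc]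
    choose t ht0 ht using hw
    refine ⟨(n : ℝ)⁻¹ * ∑ k, ∑ m, t k m, ?_, ?_⟩
    · exact mul_nonneg (inv_nonneg.2 (Nat.cast_nonneg n))
        (Finset.sum_nonneg fun k _ => Finset.sum_nonneg fun m _ => ht0 k m)
    · rw [matTrace_apply]
      simp only [expand, map_sum, ht]
      push_cast
      rfl
  · intro a b
    rw [matTrace_apply, matTrace_apply]
    congr 1
    simp only [expand, map_sum]
    rw [Finset.sum_comm]
    refine Finset.sum_congr rfl fun k _ => Finset.sum_congr rfl fun m _ => ?_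
    exact hσ.2.2 _ _

lemma trace_blowFin (h : MatrixData n φ ψ v) (σ : B →ₗ[ℂ] ℂ) {q : ℕ}
    (c : Matrix (Fin q) (Fin q) A) :
    ∑ I, σ (blowFin ψ v c I I) = (n : ℂ) * ∑ i, matTrace ψ v σ (c i i) := by
  unfold blowFin
  simp only [Matrix.submatrix_apply]
  rw [Equiv.sum_comp finProdFinEquiv.symm (fun J => σ (blow ψ v c J J)), Fintype.sum_prod_type,
    Finset.mul_sum]
  refine Finset.sum_congr rfl fun i _ => ?_
  exact sum_eq_matTrace h σ (c i i)

lemma hasRank_blowFin (h : MatrixData n φ ψ v) {σ : B →ₗ[ℂ] ℂ} {q : ℕ}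
    {a : Matrix (Fin q) (Fin q) A} {d : ℝ} (hd : HasRank (matTrace ψ v σ) a d) :
    HasRank σ (blowFin ψ v a) (n * d) := by
  obtain ⟨c, hc, hlim⟩ := hd
  refine ⟨fun m => blowFin ψ v (c m), fun m => ⟨isPosMat_blowFin h (hc m).1, ?_⟩, ?_⟩
  · rw [← blowFin_pow_succ h, (hc m).2]
  · simp only [trace_blowFin h]
    have := hlim.const_mul (n : ℂ)
    simpa using this

/-- The inverse of `blow`: from matrices over the corner back to matrices over `A`. -/
def pull (φ : B →ₗ[ℂ] A) (v : Fin n → A) {q : ℕ}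
    (z : Matrix (Fin q × Fin n) (Fin q × Fin n) B) : Matrix (Fin q) (Fin q) A :=
  fun i j => ∑ k, ∑ l, v k * φ (z (i, k) (j, l)) * star (v l)

lemma pull_apply (φ : B →ₗ[ℂ] A) (v : Fin n → A) {q : ℕ}
    (z : Matrix (Fin q × Fin n) (Fin q × Fin n) B) (i j : Fin q) :
    pull φ v z i j = ∑ k, ∑ l, v k * φ (z (i, k) (j, l)) * star (v l) := rfl

lemma pull_blow (h : MatrixData n φ ψ v) {q : ℕ} (a : Matrix (Fin q) (Fin q) A) :
    pull φ v (blow ψ v a) = a := by
  ext i j
  rw [pull_apply]
  have hterm : ∀ k l : Fin n, v k * φ (blow ψ v a (i, k) (j, l)) * star (v l)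
      = (v k * star (v k)) * a i j * (v l * star (v l)) := by
    intro k l
    rw [blow_apply, h.φ_ψ]
    have h1 : v k * (φ 1 * (star (v k) * a i j * v l) * φ 1) * star (v l)
        = (v k * φ 1) * star (v k) * a i j * (v l * φ 1) * star (v l) := by
      simp only [mul_assoc]
    rw [h1, h.v_p, h.v_p]
    simp only [mul_assoc]
  simp only [hterm]
  rw [← Finset.sum_mul_sum, ← Finset.sum_mul, h.v_sum, one_mul, mul_one]

lemma pull_star (h : MatrixData n φ ψ v) {q : ℕ}
    (z : Matrix (Fin q × Fin n) (Fin q × Fin n) B) :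
    pull φ v (star z) = star (pull φ v z) := by
  ext i j
  rw [Matrix.star_apply, pull_apply, pull_apply, star_sum, Finset.sum_comm]
  refine Finset.sum_congr rfl fun k _ => ?_
  rw [star_sum]
  refine Finset.sum_congr rfl fun l _ => ?_
  rw [Matrix.star_apply, h.corner.φ_star]
  simp only [star_mul, star_star, mul_assoc]

lemma pull_term_mul (h : MatrixData n φ ψ v) (x y : B) (k l k' l' : Fin n) :
    (v k * φ x * star (v l)) * (v k' * φ y * star (v l'))
      = if l = k' then v k * φ (x * y) * star (v l') else 0 := by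
  have h1 : (v k * φ x * star (v l)) * (v k' * φ y * star (v l'))
      = v k * φ x * (star (v l) * v k') * φ y * star (v l') := by
    simp only [mul_assoc]
  rw [h1, h.v_orth]
  split_ifs with hl
  · have h2 : φ (x * y) = φ x * φ 1 * φ y := by
      rw [← h.corner.φ_mul, ← h.corner.φ_mul, mul_one]
    rw [h2]
    simp only [mul_assoc]
  · simp

lemma pull_mul (h : MatrixData n φ ψ v) {q : ℕ}
    (z w : Matrix (Fin q × Fin n) (Fin q × Fin n) B) :
    pull φ v (z * w) = pull φ v z * pull φ v w := by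
  ext i j
  rw [Matrix.mul_apply]
  have step : ∀ m : Fin q, pull φ v z i m * pull φ v w m j
      = ∑ k, ∑ l', v k * φ (∑ l, z (i, k) (m, l) * w (m, l) (j, l')) * star (v l') := by
    intro m
    rw [pull_apply, pull_apply, Finset.sum_mul]
    refine Finset.sum_congr rfl fun k _ => ?_
    rw [Finset.sum_mul]
    have h1 : ∀ l : Fin n, v k * φ (z (i, k) (m, l)) * star (v l)
          * ∑ k', ∑ l', v k' * φ (w (m, k') (j, l')) * star (v l')
        = ∑ l', v k * φ (z (i, k) (m, l) * w (m, l) (j, l')) * star (v l') := by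
      intro l
      rw [Finset.mul_sum]
      have h2 : ∀ k' : Fin n, v k * φ (z (i, k) (m, l)) * star (v l)
            * ∑ l', v k' * φ (w (m, k') (j, l')) * star (v l')
          = if l = k' then ∑ l', v k * φ (z (i, k) (m, l) * w (m, k') (j, l')) * star (v l')
            else 0 := by
        intro k'
        rw [Finset.mul_sum]
        simp only [pull_term_mul h]
        split_ifs <;> simp
      simp only [h2, Finset.sum_ite_eq, Finset.mem_univ, if_true]
    simp only [h1]
    rw [Finset.sum_comm]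
    refine Finset.sum_congr rfl fun l' _ => ?_
    rw [map_sum, Finset.mul_sum, Finset.sum_mul]
  simp only [step]
  rw [pull_apply]
  rw [Finset.sum_comm (f := fun (m : Fin q) (k : Fin n) =>
    ∑ l', v k * φ (∑ l, z (i, k) (m, l) * w (m, l) (j, l')) * star (v l'))]
  refine Finset.sum_congr rfl fun k _ => ?_
  rw [Finset.sum_comm (f := fun (m : Fin q) (l' : Fin n) =>
    v k * φ (∑ l, z (i, k) (m, l) * w (m, l) (j, l')) * star (v l'))]
  refine Finset.sum_congr rfl fun l' _ => ?_
  rw [Matrix.mul_apply, Fintype.sum_prod_type, map_sum, Finset.mul_sum, Finset.sum_mul]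

lemma continuous_pull (h : MatrixData n φ ψ v) {q : ℕ} :
    Continuous (pull φ v : Matrix (Fin q × Fin n) (Fin q × Fin n) B → Matrix (Fin q) (Fin q) A) := by
  refine continuous_matrix fun i j => ?_
  refine continuous_finsetSum _ fun k _ => continuous_finsetSum _ fun l _ => ?_
  exact (continuous_const.mul (h.φ_cont.comp (continuous_id.matrix_elem (i, k) (j, l)))).mul
    continuous_const

theorem isComparisonBound_matrix (h : MatrixData n φ ψ v) {s : ℝ}
    (hs : IsComparisonBound B s) : IsComparisonBound A (s / n) := by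
  have hn : (0 : ℝ) < n := by exact_mod_cast h.corner.pos
  refine ⟨div_nonneg hs.1 hn.le, ?_⟩
  intro q a b ha hb hgap
  have hB : CuntzLE (blowFin ψ v a) (blowFin ψ v b) := by
    refine hs.2 (q * n) _ _ (isPosMat_blowFin h ha) (isPosMat_blowFin h hb) ?_
    intro σ hσ
    obtain ⟨da, db, hda, hdb, hlt⟩ := hgap _ (matTrace_isTracialState h hσ)
    refine ⟨n * da, n * db, hasRank_blowFin h hda, hasRank_blowFin h hdb, ?_⟩
    have := mul_lt_mul_of_pos_left hlt hn
    rw [mul_add, mul_div_cancel₀ _ hn.ne'] at this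
    exact this
  obtain ⟨x, hx⟩ := hB
  set e := (finProdFinEquiv : Fin q × Fin n ≃ Fin (q * n)) with he
  refine ⟨fun k => pull φ v ((x k).submatrix e e), ?_⟩
  have hsub : Continuous fun M : Matrix (Fin (q * n)) (Fin (q * n)) B => M.submatrix e e :=
    continuous_id.matrix_submatrix e e
  have hcont := (continuous_pull h (q := q)).comp hsub
  have h1 := (hcont.tendsto (blowFin ψ v a)).comp hx
  have hback : ∀ c : Matrix (Fin q) (Fin q) A, (blowFin ψ v c).submatrix e e = blow ψ v c := by
    intro c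
    unfold blowFin
    rw [Matrix.submatrix_submatrix]
    simp [he]
  have h2 : pull φ v ((blowFin ψ v a).submatrix e e) = a := by
    rw [hback, pull_blow h]
  simp only [Function.comp_apply] at h1
  rw [h2] at h1
  refine h1.congr ?_
  intro k
  have h3 : (star (x k) * blowFin ψ v b * x k).submatrix e e
      = star ((x k).submatrix e e) * blow ψ v b * (x k).submatrix e e := by
    rw [← hback b, Matrix.star_eq_conjTranspose, Matrix.star_eq_conjTranspose,
      Matrix.conjTranspose_submatrix, Matrix.submatrix_mul_equiv, Matrix.submatrix_mul_equiv]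
  show pull φ v ((star (x k) * blowFin ψ v b * x k).submatrix e e)
    = star (pull φ v ((x k).submatrix e e)) * b * pull φ v ((x k).submatrix e e)
  rw [h3, pull_mul h, pull_mul h, pull_star h, pull_blow h]

theorem rc_matrix_le (h : MatrixData n φ ψ v) : (n : ℝ≥0∞) * rc A ≤ rc B := by
  have hn : (0 : ℝ) < n := by exact_mod_cast h.corner.pos
  have hn0 : (n : ℝ≥0∞) ≠ 0 := by exact_mod_cast h.corner.pos.ne'
  have hnt : (n : ℝ≥0∞) ≠ ⊤ := ENNReal.natCast_ne_top n
  unfold rc
  refine le_sInf ?_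
  rintro t ⟨s, hs, rfl⟩
  have hmem : ENNReal.ofReal (s / n) ∈ {t : ℝ≥0∞ | ∃ r : ℝ, IsComparisonBound A r ∧
      t = ENNReal.ofReal r} := ⟨s / n, isComparisonBound_matrix h hs, rfl⟩
  calc (n : ℝ≥0∞) * sInf {t : ℝ≥0∞ | ∃ r : ℝ, IsComparisonBound A r ∧ t = ENNReal.ofReal r}
      ≤ (n : ℝ≥0∞) * ENNReal.ofReal (s / n) := by
        gcongr
        exact sInf_le hmem
    _ = ENNReal.ofReal s := by
        rw [← ENNReal.ofReal_natCast n, ← ENNReal.ofReal_mul (Nat.cast_nonneg n),
          mul_div_cancel₀ _ hn.ne']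

end MatrixTransfer

end Vale.Agent.Lib.P093
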