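import Vale.Agent.Lib.P093.Defs

/-!
Abstract transfer of comparison bounds from a unital C*-algebra `A` to a full corner `B`
whose unit has trace `1/n` under every tracial state of `A`.
-/

namespace Vale.Agent.Lib.P093

open Filter Topology
open scoped ENNReal

section Transfer

variable {A B : Type*} [CStarAlgebra A] [CStarAlgebra B]

/-- `φ : B → A` is a (non-unital) star homomorphism, `ψ : A → B` the compression onto the
corner, and the unit of the corner has trace `1/n`. -/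
structure CornerData (n : ℕ) (φ : B →ₗ[ℂ] A) (ψ : A →ₗ[ℂ] B) : Prop where
  pos : 0 < n
  φ_mul : ∀ x y, φ (x * y) = φ x * φ y
  φ_star : ∀ x, φ (star x) = star (φ x)
  ψ_cont : Continuous ψ
  ψ_star : ∀ x, ψ (star x) = star (ψ x)
  ψ_mid : ∀ s t r, ψ (s * φ t * r) = ψ s * t * ψ r
  ψ_φ : ∀ t, ψ (φ t) = t
  trace : ∀ τ : A →ₗ[ℂ] ℂ, IsTracialState A τ → τ (φ 1) = (n : ℂ)⁻¹

variable {n : ℕ} {φ : B →ₗ[ℂ] A} {ψ : A →ₗ[ℂ] B}

lemma map_mul_of {q : ℕ} (hφ : ∀ x y, φ (x * y) = φ x * φ y)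
    (M N : Matrix (Fin q) (Fin q) B) : (M * N).map φ = M.map φ * N.map φ := by
  ext i j
  simp [Matrix.mul_apply, map_sum, hφ]

lemma map_star_of {q : ℕ} (hφ : ∀ x, φ (star x) = star (φ x))
    (M : Matrix (Fin q) (Fin q) B) : (star M).map φ = star (M.map φ) := by
  ext i j
  simp [Matrix.star_apply, hφ]

lemma map_pow_succ_of {q : ℕ} (hφ : ∀ x y, φ (x * y) = φ x * φ y)
    (M : Matrix (Fin q) (Fin q) B) (m : ℕ) : (M ^ (m + 1)).map φ = (M.map φ) ^ (m + 1) := by
  induction m with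
  | zero => simp
  | succ k ih => rw [pow_succ, map_mul_of hφ, ih, ← pow_succ]

lemma isPosMat_map {q : ℕ} (hm : ∀ x y, φ (x * y) = φ x * φ y)
    (hs : ∀ x, φ (star x) = star (φ x)) {a : Matrix (Fin q) (Fin q) B} (ha : IsPosMat a) :
    IsPosMat (a.map φ) := by
  obtain ⟨y, rfl⟩ := ha
  exact ⟨y.map φ, by rw [map_mul_of hm, map_star_of hs]⟩

/-- The tracial state on the corner induced by a tracial state of `A`. -/
noncomputable def cornerTrace (n : ℕ) (φ : B →ₗ[ℂ] A) (τ : A →ₗ[ℂ] ℂ) : B →ₗ[ℂ] ℂ :=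
  (n : ℂ) • (τ ∘ₗ φ)

lemma cornerTrace_apply (τ : A →ₗ[ℂ] ℂ) (x : B) :
    cornerTrace n φ τ x = (n : ℂ) * τ (φ x) := rfl

lemma cornerTrace_isTracialState (h : CornerData n φ ψ) {τ : A →ₗ[ℂ] ℂ}
    (hτ : IsTracialState A τ) : IsTracialState B (cornerTrace n φ τ) := by
  have hn : (n : ℂ) ≠ 0 := by exact_mod_cast h.pos.ne'
  refine ⟨?_, ?_, ?_⟩
  · rw [cornerTrace_apply, h.trace τ hτ, mul_inv_cancel₀ hn]
  · intro a
    obtain ⟨t, ht, hta⟩ := hτ.2.1 (φ a)
    refine ⟨n * t, by positivity, ?_⟩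
    rw [cornerTrace_apply, h.φ_mul, h.φ_star, hta]
    push_cast
    ring
  · intro a b
    rw [cornerTrace_apply, cornerTrace_apply, h.φ_mul, h.φ_mul, hτ.2.2]

lemma hasRank_map (h : CornerData n φ ψ) {τ : A →ₗ[ℂ] ℂ} {q : ℕ}
    {a : Matrix (Fin q) (Fin q) B} {d : ℝ} (hd : HasRank (cornerTrace n φ τ) a d) :
    HasRank τ (a.map φ) (d / n) := by
  have hn : (n : ℂ) ≠ 0 := by exact_mod_cast h.pos.ne'
  obtain ⟨c, hc, hlim⟩ := hd
  refine ⟨fun m => (c m).map φ, fun m => ⟨isPosMat_map h.φ_mul h.φ_star (hc m).1, ?_⟩, ?_⟩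
  · rw [← map_pow_succ_of h.φ_mul, (hc m).2]
  · have : (fun m => ∑ i, τ (((c m).map φ) i i))
        = fun m => (∑ i, cornerTrace n φ τ (c m i i)) / (n : ℂ) := by
      funext m
      simp only [Matrix.map_apply, cornerTrace_apply]
      rw [← Finset.mul_sum, mul_div_cancel_left₀ _ hn]
    rw [this]
    have := hlim.div_const (n : ℂ)
    simpa using this

lemma map_compress {q : ℕ} (h : CornerData n φ ψ) (x : Matrix (Fin q) (Fin q) A)
    (b : Matrix (Fin q) (Fin q) B) :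
    (star x * b.map φ * x).map ψ = star (x.map ψ) * b * x.map ψ := by
  ext i j
  simp only [Matrix.map_apply, Matrix.mul_apply, Matrix.star_apply, map_sum, Finset.sum_mul,
    h.ψ_mid, h.ψ_star]

theorem isComparisonBound_corner (h : CornerData n φ ψ) {r : ℝ}
    (hr : IsComparisonBound A r) : IsComparisonBound B (n * r) := by
  have hn : (0 : ℝ) < n := by exact_mod_cast h.pos
  refine ⟨mul_nonneg hn.le hr.1, ?_⟩
  intro q a b ha hb hgap
  have hA : CuntzLE (a.map φ) (b.map φ) := by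
    refine hr.2 q (a.map φ) (b.map φ) (isPosMat_map h.φ_mul h.φ_star ha)
      (isPosMat_map h.φ_mul h.φ_star hb) ?_
    intro τ hτ
    obtain ⟨da, db, hda, hdb, hlt⟩ := hgap _ (cornerTrace_isTracialState h hτ)
    refine ⟨da / n, db / n, hasRank_map h hda, hasRank_map h hdb, ?_⟩
    rw [div_add' _ _ _ hn.ne', div_lt_div_iff_of_pos_right hn]
    linarith
  obtain ⟨x, hx⟩ := hA
  refine ⟨fun k => (x k).map ψ, ?_⟩
  have hcont : Continuous fun M : Matrix (Fin q) (Fin q) A => M.map ψ :=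
    continuous_id.matrix_map h.ψ_cont
  have h1 := (hcont.tendsto (a.map φ)).comp hx
  have h2 : (a.map φ).map ψ = a := by
    ext i j
    simp [h.ψ_φ]
  rw [h2] at h1
  refine h1.congr ?_
  intro k
  simp only [Function.comp_apply]
  exact map_compress h (x k) b

theorem rc_corner_le (h : CornerData n φ ψ) : rc B ≤ n * rc A := by
  have hn : (n : ℝ≥0∞) ≠ 0 := by exact_mod_cast h.pos.ne'
  have hn' : (n : ℝ≥0∞) ≠ ⊤ := ENNReal.natCast_ne_top n
  rw [mul_comm, ← ENNReal.div_le_iff_le_mul (Or.inl hn) (Or.inl hn')]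
  unfold rc
  refine le_sInf ?_
  rintro t ⟨r, hr, rfl⟩
  rw [ENNReal.div_le_iff_le_mul (Or.inl hn) (Or.inl hn'), mul_comm]
  refine sInf_le ?_
  refine ⟨n * r, isComparisonBound_corner h hr, ?_⟩
  rw [ENNReal.ofReal_mul (Nat.cast_nonneg n), ENNReal.ofReal_natCast]

end Transfer

end Vale.Agent.Lib.P093
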