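import Vale.Agent.Lib.P093.Defs

/-!
The same objects as in `Defs`, written directly over `lp`, for the proofs.
-/

namespace Vale.Agent.Lib.P093

open Filter Topology
open scoped ENNReal

noncomputable section

section CrossedProduct

variable {X : Type*} [TopologicalSpace X]

/-- The Hilbert space `ℓ²(X)` (over the underlying set of `X`). -/
abbrev L2 (X : Type*) := lp (fun _ : X => ℂ) 2

/-- The generators of the crossed product inside `B(ℓ²(X))`: the multiplication operators
by continuous functions, and the unitary `(u ξ)(x) = ξ (h⁻¹ x)` implementing `h`. -/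
def generators (h : X ≃ₜ X) : Set (L2 X →L[ℂ] L2 X) :=
  {T | (∃ f : C(X, ℂ), ∀ (ξ : L2 X) (x : X), T ξ x = f x * ξ x) ∨
    (∀ (ξ : L2 X) (x : X), T ξ x = ξ (h.symm x))}

/-- Concrete model of `C(X) ⋊_h ℤ`: the C*-subalgebra of `B(ℓ²(X))` generated by the
multiplication operators and the unitary implementing `h`. -/
def crossedProduct (h : X ≃ₜ X) : StarSubalgebra ℂ (L2 X →L[ℂ] L2 X) :=
  (StarAlgebra.adjoin ℂ (generators h)).topologicalClosure

instance crossedProduct_isClosed (h : X ≃ₜ X) :
    IsClosed ((crossedProduct h : StarSubalgebra ℂ (L2 X →L[ℂ] L2 X)) : Set (L2 X →L[ℂ] L2 X)) :=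
  StarSubalgebra.isClosed_topologicalClosure _

end CrossedProduct

section Bridge

universe u

variable {X : Type u} [TopologicalSpace X]

theorem rc_CrossedProduct (h : X ≃ₜ X) : rc (CrossedProduct h) = rc (crossedProduct h) := rfl

end Bridge

end

end Vale.Agent.Lib.P093
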