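import Vale.Agent.Lib.P093.MdimLimsup

/-!
For a clopen tower of height `n` with base `U` and return map `g`:
`mdim (U, g) ≤ n * mdim (X, h)`, hence `mdim (U, g) = n * mdim (X, h)`.
-/

namespace Vale.Agent.Lib.P093

open Filter Topology
open scoped ENNReal

variable {X : Type*} [TopologicalSpace X]

/-- The cover of `X` made of the members of a cover of `U` and the complement of `U`. -/
def pushCover (U : Set X) (V : Set (Set U)) : Set (Set X) :=
  insert Uᶜ ((fun v => (Subtype.val : U → X) '' v) '' V)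

lemma isFinOpenCover_pushCover {U : Set X} (hU : IsClopen U) {V : Set (Set U)}
    (hV : IsFinOpenCover V) : IsFinOpenCover (pushCover U V) := by
  refine ⟨(hV.1.image _).insert _, ?_, ?_⟩
  · rintro s (rfl | ⟨v, hv, rfl⟩)
    · exact hU.compl.isOpen
    · exact hU.isOpen.isOpenMap_subtype_val v (hV.2.1 v hv)
  · rw [Set.eq_univ_iff_forall]
    intro x
    by_cases hx : x ∈ U
    · have hy : (⟨x, hx⟩ : U) ∈ ⋃₀ V := by rw [hV.2.2]; trivial
      obtain ⟨v, hv, hyv⟩ := hy
      exact ⟨_, Or.inr ⟨v, hv, rfl⟩, ⟨⟨x, hx⟩, hyv, rfl⟩⟩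
    · exact ⟨Uᶜ, Or.inl rfl, hx⟩

omit [TopologicalSpace X] in
lemma restrictCover_orderLE (U : Set X) {W : Set (Set X)} {k : ℕ} (hW : OrderLE W k) :
    OrderLE (restrictCover U W) k := by
  intro y F hF hy
  classical
  have : ∀ t ∈ F, ∃ s ∈ W, (Subtype.val : U → X) ⁻¹' s = t := by
    intro t ht
    obtain ⟨s, hs, hst⟩ := hF ht
    exact ⟨s, hs, hst⟩
  choose! p hpW hp using this
  have hinj : Set.InjOn p (F : Set (Set U)) := by
    intro t ht t' ht' hpp
    rw [← hp t ht, ← hp t' ht', hpp]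
  have hcard : (F.image p).card = F.card := Finset.card_image_of_injOn hinj
  rw [← hcard]
  refine hW (y : X) (F.image p) ?_ ?_
  · intro s hs
    obtain ⟨t, ht, rfl⟩ := Finset.mem_image.1 (Finset.mem_coe.1 hs)
    exact hpW t ht
  · intro s hs
    obtain ⟨t, ht, rfl⟩ := Finset.mem_image.1 hs
    have := hy t ht
    rw [← hp t ht] at this
    exact this

namespace IsTower

variable {h : X ≃ₜ X} {n : ℕ} {U : Set X} {g : U ≃ₜ U}

lemma restrict_refines (ht : IsTower h n U g) {V : Set (Set U)} (hV : V.Nonempty)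
    {W : Set (Set X)} {N : ℕ} (hW : Refines W (joinCover h (pushCover U V) (n * N))) :
    Refines (restrictCover U W) (joinCover g V N) := by
  obtain ⟨v₀, hv₀⟩ := hV
  rintro _ ⟨s, hs, rfl⟩
  obtain ⟨t, ⟨c, hc, rfl⟩, hst⟩ := hW s hs
  by_cases hne : ((Subtype.val : U → X) ⁻¹' s).Nonempty
  · obtain ⟨y, hy⟩ := hne
    have hn := ht.pos
    have key : ∀ k, k < N → ∃ v ∈ V, c (n * k) = (Subtype.val : U → X) '' v := by
      intro k hk
      have h1 := hst hy
      simp only [Set.mem_iInter, Set.mem_preimage, Finset.mem_range] at h1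
      have h2 := h1 (n * k) (Nat.mul_lt_mul_of_pos_left hk hn)
      rw [← ht.g_iterate] at h2
      rcases hc (n * k) with hcU | ⟨v, hv, hcv⟩
      · rw [hcU] at h2
        exact absurd ((g^[k]) y).2 h2
      · exact ⟨v, hv, hcv.symm⟩
    classical
    let d : ℕ → Set U := fun k => if hk : k < N then (key k hk).choose else v₀
    have hd : ∀ k, d k ∈ V := by
      intro k
      by_cases hk : k < N
      · simp only [d, dif_pos hk]
        exact (key k hk).choose_spec.1
      · simp only [d, dif_neg hk]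
        exact hv₀
    have hdc : ∀ k, k < N → c (n * k) = (Subtype.val : U → X) '' d k := by
      intro k hk
      simp only [d, dif_pos hk]
      exact (key k hk).choose_spec.2
    refine ⟨_, ⟨d, hd, rfl⟩, ?_⟩
    intro z hz
    simp only [Set.mem_iInter, Set.mem_preimage, Finset.mem_range]
    intro k hk
    have h1 := hst hz
    simp only [Set.mem_iInter, Set.mem_preimage, Finset.mem_range] at h1
    have h2 := h1 (n * k) (Nat.mul_lt_mul_of_pos_left hk hn)
    rw [← ht.g_iterate, hdc k hk] at h2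
    obtain ⟨w, hw, hwz⟩ := h2
    have : w = (g^[k]) z := Subtype.ext hwz
    exact this ▸ hw
  · rw [Set.not_nonempty_iff_eq_empty] at hne
    refine ⟨_, ⟨fun _ => v₀, fun _ => hv₀, rfl⟩, ?_⟩
    show (Subtype.val : U → X) ⁻¹' s ⊆ _
    rw [hne]
    exact Set.empty_subset _

lemma coverD_join_ge (ht : IsTower h n U g) {V : Set (Set U)} (hV : IsFinOpenCover V) (N : ℕ) :
    coverD (joinCover g V N) ≤ coverD (joinCover h (pushCover U V) (n * N)) := by
  have hP : IsFinOpenCover (pushCover U V) := isFinOpenCover_pushCover ht.isClopen hV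
  obtain ⟨W, hW, hWr, hWo⟩ := coverD_spec (isFinOpenCover_joinCover h.continuous hP (n * N))
  by_cases hne : V.Nonempty
  · exact coverD_le (isFinOpenCover_restrictCover U hW) (ht.restrict_refines hne hWr)
      (restrictCover_orderLE U hWo)
  · rw [Set.not_nonempty_iff_eq_empty] at hne
    subst hne
    refine coverD_le (W := ∅) hV ?_ ?_
    · intro s hs
      exact absurd hs (Set.notMem_empty s)
    · intro x F hF _
      have : F = ∅ := by
        rw [Finset.eq_empty_iff_forall_notMem]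
        intro s hs
        exact Set.notMem_empty s (hF hs)
      simp [this]

/-- For a clopen tower of height `n` with base `U` and return map `g`,
`mdim (U, g) ≤ n * mdim (X, h)`. -/
theorem mdim_tower_ge (ht : IsTower h n U g) : mdim g ≤ (n : ℝ≥0∞) * mdim h := by
  have hn := ht.pos
  have hn0 : (n : ℝ≥0∞) ≠ 0 := by exact_mod_cast hn.ne'
  have hnt : (n : ℝ≥0∞) ≠ ⊤ := ENNReal.natCast_ne_top n
  unfold mdim
  refine iSup₂_le ?_
  intro V hV
  have hP : IsFinOpenCover (pushCover U V) := isFinOpenCover_pushCover ht.isClopen hV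
  set b : ℕ → ℝ≥0∞ := fun M =>
    (coverD (joinCover h (pushCover U V) M) : ℝ≥0∞) / (M : ℝ≥0∞) with hb
  have hφ : Tendsto (fun N : ℕ => n * N) atTop atTop := by
    refine tendsto_atTop.2 fun B => ?_
    filter_upwards [eventually_ge_atTop B] with N hN
    exact hN.trans (Nat.le_mul_of_pos_left N hn)
  have hpt : ∀ N : ℕ, (coverD (joinCover g V N) : ℝ≥0∞) / (N : ℝ≥0∞)
      ≤ (n : ℝ≥0∞) * (b ∘ fun N : ℕ => n * N) N := by
    intro N
    simp only [hb, Function.comp_apply]
    have h1 : ((coverD (joinCover g V N) : ℕ) : ℝ≥0∞)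
        ≤ ((coverD (joinCover h (pushCover U V) (n * N)) : ℕ) : ℝ≥0∞) := by
      exact_mod_cast ht.coverD_join_ge hV N
    calc (coverD (joinCover g V N) : ℝ≥0∞) / (N : ℝ≥0∞)
        ≤ (coverD (joinCover h (pushCover U V) (n * N)) : ℝ≥0∞) / (N : ℝ≥0∞) :=
          ENNReal.div_le_div_right h1 _
      _ = (n : ℝ≥0∞) * ((coverD (joinCover h (pushCover U V) (n * N)) : ℝ≥0∞)
            / ((n * N : ℕ) : ℝ≥0∞)) := by
          rw [Nat.cast_mul, div_eq_mul_inv, div_eq_mul_inv,
            ENNReal.mul_inv (Or.inl hn0) (Or.inl hnt), mul_left_comm, ← mul_assoc (n : ℝ≥0∞),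
            ENNReal.mul_inv_cancel hn0 hnt, one_mul]
  calc limsup (fun N : ℕ => (coverD (joinCover g V N) : ℝ≥0∞) / (N : ℝ≥0∞)) atTop
      ≤ limsup (fun N : ℕ => (n : ℝ≥0∞) * (b ∘ fun N : ℕ => n * N) N) atTop :=
        limsup_le_limsup (Eventually.of_forall hpt)
    _ = (n : ℝ≥0∞) * limsup (b ∘ fun N : ℕ => n * N) atTop :=
        ENNReal.limsup_const_mul_of_ne_top hnt
    _ ≤ (n : ℝ≥0∞) * limsup b atTop := by
        gcongr
        rw [limsup_comp]
        exact limsup_le_limsup_of_le hφ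
    _ ≤ (n : ℝ≥0∞) * ⨆ W ∈ {W : Set (Set X) | IsFinOpenCover W},
          limsup (fun M : ℕ => (coverD (joinCover h W M) : ℝ≥0∞) / (M : ℝ≥0∞)) atTop := by
        gcongr
        exact le_iSup₂ (f := fun (W : Set (Set X)) (_ : W ∈ {W : Set (Set X) | IsFinOpenCover W})
          => limsup (fun M : ℕ => (coverD (joinCover h W M) : ℝ≥0∞) / (M : ℝ≥0∞)) atTop) _ hP

/-- Exact scaling of mean dimension along a clopen tower. -/
theorem mdim_tower_eq (ht : IsTower h n U g) : mdim g = (n : ℝ≥0∞) * mdim h := by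
  have hn0 : (n : ℝ≥0∞) ≠ 0 := by exact_mod_cast ht.pos.ne'
  have hnt : (n : ℝ≥0∞) ≠ ⊤ := ENNReal.natCast_ne_top n
  refine le_antisymm ht.mdim_tower_ge ?_
  have := mdim_tower_le ht
  rw [ENNReal.le_div_iff_mul_le (Or.inl hn0) (Or.inl hnt)] at this
  rwa [mul_comm]

end IsTower

end Vale.Agent.Lib.P093
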