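import Vale.Agent.Lib.P093.TowerBasic

/-!
The return system on the base of a clopen tower over a minimal system is minimal, and
its phase space is infinite when the total space is.
-/

namespace Vale.Agent.Lib.P093

open Filter Topology

variable {X : Type*} [TopologicalSpace X]

namespace IsTower

variable {h : X ≃ₜ X} {n : ℕ} {U : Set X} {g : U ≃ₜ U}

theorem isMinimalHomeo (ht : IsTower h n U g) (hm : IsMinimalHomeo h) : IsMinimalHomeo g := by
  intro y
  rw [dense_iff_inter_open]
  intro V hV hVne
  have hopen : IsOpen ((Subtype.val : U → X) '' V) :=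
    ht.isClopen.isOpen.isOpenMap_subtype_val V hV
  have hne : ((Subtype.val : U → X) '' V).Nonempty := hVne.image _
  obtain ⟨x, ⟨z, hzV, rfl⟩, ⟨k, hk⟩⟩ := (dense_iff_inter_open.1 (hm (y : X))) _ hopen hne
  have hk' : (h ^ k) (y : X) = (z : X) := hk
  have hdvd : (n : ℤ) ∣ k := ht.dvd_of_mem k y.2 (hk' ▸ z.2)
  obtain ⟨l, rfl⟩ := hdvd
  refine ⟨z, hzV, l, ?_⟩
  apply Subtype.ext
  show (((g ^ l) y : U) : X) = z
  rw [ht.g_zpow l y, hk']

theorem infinite (ht : IsTower h n U g) [Infinite X] : Infinite U := by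
  by_contra hfin
  rw [not_infinite_iff_finite] at hfin
  have hU : U.Finite := Set.toFinite U
  have hcov : (Set.univ : Set X) ⊆ ⋃ j ∈ Finset.range n, (h^[j]) '' U := by
    intro x _
    obtain ⟨j, hj, y, hy, hxy⟩ := ht.cover x
    simp only [Set.mem_iUnion, Finset.mem_range]
    exact ⟨j, hj, y, hy, hxy⟩
  have hfinX : (Set.univ : Set X).Finite := by
    refine Set.Finite.subset ?_ hcov
    exact Set.Finite.biUnion (Finset.finite_toSet _) (fun j _ => hU.image _)
  exact Set.infinite_univ hfinX

end IsTower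

end Vale.Agent.Lib.P093
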