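import Vale.Agent.Lib.P093.TowerRCRev
import Vale.Agent.Lib.P093.TowerMdimRev
import Vale.Agent.Lib.P093.TowerMinimal

/-!
Exact scaling of the radius of comparison and of the mean dimension along a clopen tower,
and the resulting equivalence of the Phillips-Toms equality for the two systems.
-/

namespace Vale.Agent.Lib.P093

open Filter Topology
open scoped ENNReal

universe u

variable {X : Type u} [TopologicalSpace X] [CompactSpace X]

theorem tower_scaling {h : X ≃ₜ X} {n : ℕ} {U : Set X} {g : U ≃ₜ U} (ht : IsTower h n U g) :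
    rc (CrossedProduct g) = (n : ℝ≥0∞) * rc (CrossedProduct h) ∧
      mdim g = (n : ℝ≥0∞) * mdim h ∧
      (mdim g / 2 ≤ rc (CrossedProduct g) ↔ mdim h / 2 ≤ rc (CrossedProduct h)) ∧
      (rc (CrossedProduct g) = mdim g / 2 ↔ rc (CrossedProduct h) = mdim h / 2) ∧
      (IsMinimalHomeo h → IsMinimalHomeo g) := by
  have hn0 : (n : ℝ≥0∞) ≠ 0 := by exact_mod_cast ht.pos.ne'
  have hnt : (n : ℝ≥0∞) ≠ ⊤ := ENNReal.natCast_ne_top n
  have e1 : rc (CrossedProduct g) = (n : ℝ≥0∞) * rc (CrossedProduct h) := by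
    rw [rc_CrossedProduct, rc_CrossedProduct]
    exact rc_tower_eq ht
  have e2 : mdim g = (n : ℝ≥0∞) * mdim h := ht.mdim_tower_eq
  refine ⟨e1, e2, ?_, ?_, ht.isMinimalHomeo⟩
  · rw [e1, e2, mul_div_assoc, ENNReal.mul_le_mul_iff_right hn0 hnt]
  · rw [e1, e2, mul_div_assoc, ENNReal.mul_right_inj hn0 hnt]

end Vale.Agent.Lib.P093
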