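import Vale.Agent.Lib.P093.Suspension

/-!
Reduction of the lower bound `mdim / 2 ≤ rc` for systems of finite mean dimension to systems
of arbitrarily small mean dimension with a clopen tower of prescribed minimal height.
-/

namespace Vale.Agent.Lib.P093

open Filter Topology
open scoped ENNReal

theorem small_mdim_reduction (ε : ℝ≥0∞) (hε : ε ≠ 0) (N : ℕ)
    (H : ∀ (X : Type) [TopologicalSpace X] [CompactSpace X] [TopologicalSpace.MetrizableSpace X]
      [Infinite X] (h : X ≃ₜ X), IsMinimalHomeo h → mdim h ≤ ε →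
      (∃ n, N ≤ n ∧ ∃ (U : Set X) (g : U ≃ₜ U), IsTower h n U g) →
      mdim h / 2 ≤ rc (CrossedProduct h))
    (Y : Type) [TopologicalSpace Y] [CompactSpace Y] [TopologicalSpace.MetrizableSpace Y]
    [Infinite Y] (g : Y ≃ₜ Y) (hg : IsMinimalHomeo g) (hfin : mdim g ≠ ⊤) :
    mdim g / 2 ≤ rc (CrossedProduct g) := by
  obtain ⟨k, hk⟩ := ENNReal.exists_nat_mul_gt hε hfin
  set m := k + N with hm
  have hcast0 : ((m + 1 : ℕ) : ℝ≥0∞) ≠ 0 := by exact_mod_cast Nat.succ_ne_zero m
  have hcastt : ((m + 1 : ℕ) : ℝ≥0∞) ≠ ⊤ := ENNReal.natCast_ne_top _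
  obtain ⟨e1, e2⟩ := suspension_invariants g m
  have hle : mdim (suspension g m) ≤ ε := by
    rw [← ENNReal.mul_le_mul_iff_right hcast0 hcastt, ← e2]
    refine hk.le.trans ?_
    gcongr
    omega
  have hX := H (Y × Fin (m + 1)) (suspension g m) (suspension_isMinimal g m hg) hle
    ⟨m + 1, by omega, suspBase Y m, suspReturn g m, suspension_isTower g m⟩
  rw [rc_CrossedProduct] at hX ⊢
  rw [e1, e2, mul_div_assoc]
  gcongr

end Vale.Agent.Lib.P093
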