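import Vale.Agent.Lib.P093.Scaling
import Vale.Agent.Lib.P093.ConjMdim
import Vale.Agent.Lib.P093.ConjRC

/-!
The discrete suspension of a system `(Y, g)`: the space `Y × Fin (m + 1)` with the
homeomorphism moving one level up and applying `g` when returning to level `0`.
It has a clopen tower of height `m + 1` whose base system is conjugate to `(Y, g)`.
-/

namespace Vale.Agent.Lib.P093

open Filter Topology
open scoped ENNReal

section General

variable {X : Type*} [TopologicalSpace X] {h : X ≃ₜ X} {n : ℕ} {U : Set X} {g : U ≃ₜ U}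

/-- If the return system on the base of a tower is minimal, so is the whole system. -/
theorem IsTower.isMinimalHomeo_total (ht : IsTower h n U g) (hg : IsMinimalHomeo g) :
    IsMinimalHomeo h := by
  intro x
  rw [dense_iff_inter_open]
  rintro W hW ⟨w, hw⟩
  obtain ⟨j, hj, y, hy, hxy⟩ := ht.cover x
  obtain ⟨j', hj', y', hy', hwy⟩ := ht.cover w
  have hV : IsOpen {u : U | (h^[j']) (u : X) ∈ W} :=
    hW.preimage ((h.continuous.iterate j').comp continuous_subtype_val)
  have hVne : {u : U | (h^[j']) (u : X) ∈ W}.Nonempty := ⟨⟨y', hy'⟩, by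
    show (h^[j']) y' ∈ W
    rw [hwy]
    exact hw⟩
  obtain ⟨u, hu, k, hk⟩ := (dense_iff_inter_open.1 (hg ⟨y, hy⟩)) _ hV hVne
  have hk' : (g ^ k) ⟨y, hy⟩ = u := hk
  refine ⟨(h^[j']) (u : X), hu, (j' : ℤ) + (n : ℤ) * k - j, ?_⟩
  show (h ^ ((j' : ℤ) + (n : ℤ) * k - j)) x = (h^[j']) (u : X)
  have h1 : (u : X) = (h ^ ((n : ℤ) * k)) y := by
    rw [← hk']
    exact ht.g_zpow k ⟨y, hy⟩
  have h2 : x = (h ^ (j : ℤ)) y := by
    rw [zpow_natCast, ← iterate_eq_pow]
    exact hxy.symm
  rw [iterate_eq_pow, h1, h2, ← zpow_natCast, ← Homeomorph.mul_apply, ← Homeomorph.mul_apply,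
    ← zpow_add, ← zpow_add]
  congr 2
  ring

end General

section Susp

variable {Y : Type*} [TopologicalSpace Y]

/-- Apply `g` on the top level, the identity on the other levels. -/
def suspSlice (g : Y ≃ₜ Y) (m : ℕ) : Y × Fin (m + 1) ≃ₜ Y × Fin (m + 1) where
  toFun p := (if p.2 = Fin.last m then g p.1 else p.1, p.2)
  invFun p := (if p.2 = Fin.last m then g.symm p.1 else p.1, p.2)
  left_inv p := by
    rcases p with ⟨y, i⟩
    by_cases hi : i = Fin.last m <;> simp [hi]
  right_inv p := by
    rcases p with ⟨y, i⟩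
    by_cases hi : i = Fin.last m <;> simp [hi]
  continuous_toFun := by
    rw [continuous_prod_of_discrete_right]
    intro i
    by_cases hi : i = Fin.last m
    · simp only [hi, if_true]
      exact g.continuous.prodMk continuous_const
    · simp only [hi, if_false]
      exact continuous_id.prodMk continuous_const
  continuous_invFun := by
    rw [continuous_prod_of_discrete_right]
    intro i
    by_cases hi : i = Fin.last m
    · simp only [hi, if_true]
      exact g.symm.continuous.prodMk continuous_const
    · simp only [hi, if_false]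
      exact continuous_id.prodMk continuous_const

/-- The discrete suspension of height `m + 1`. -/
def suspension (g : Y ≃ₜ Y) (m : ℕ) : Y × Fin (m + 1) ≃ₜ Y × Fin (m + 1) :=
  (suspSlice g m).trans
    ((Homeomorph.refl Y).prodCongr (finRotate (m + 1)).toHomeomorphOfDiscrete)

lemma suspension_apply (g : Y ≃ₜ Y) (m : ℕ) (y : Y) (i : Fin (m + 1)) :
    suspension g m (y, i) = (if i = Fin.last m then g y else y, finRotate (m + 1) i) := rfl

lemma suspension_iterate (g : Y ≃ₜ Y) (m : ℕ) (y : Y) (j : ℕ) (hj : j < m + 1) :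
    ((suspension g m)^[j]) (y, 0) = (y, ⟨j, hj⟩) := by
  induction j with
  | zero => rfl
  | succ k ih =>
    have hk : k < m := by omega
    rw [Function.iterate_succ_apply', ih (by omega), suspension_apply]
    have hne : (⟨k, by omega⟩ : Fin (m + 1)) ≠ Fin.last m := by
      intro hh
      have := congrArg Fin.val hh
      simp at this
      omega
    rw [if_neg hne, finRotate_of_lt hk]

lemma suspension_iterate_full (g : Y ≃ₜ Y) (m : ℕ) (y : Y) :
    ((suspension g m)^[m + 1]) (y, 0) = (g y, 0) := by
  rw [Function.iterate_succ_apply', suspension_iterate g m y m (Nat.lt_succ_self m),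
    suspension_apply]
  have hl : (⟨m, Nat.lt_succ_self m⟩ : Fin (m + 1)) = Fin.last m := rfl
  rw [hl, if_pos rfl, finRotate_last]

/-- The base of the suspension tower. -/
def suspBase (Y : Type*) (m : ℕ) : Set (Y × Fin (m + 1)) := {p | p.2 = 0}

/-- The base is a copy of `Y`. -/
def baseHomeo (Y : Type*) [TopologicalSpace Y] (m : ℕ) : Y ≃ₜ suspBase Y m where
  toFun y := ⟨(y, 0), rfl⟩
  invFun u := u.1.1
  left_inv y := rfl
  right_inv u := by
    rcases u with ⟨⟨y, i⟩, hi⟩
    have hi' : i = 0 := hi
    subst hi'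
    rfl
  continuous_toFun := (continuous_id.prodMk continuous_const).subtype_mk _
  continuous_invFun := continuous_fst.comp continuous_subtype_val

/-- The return map on the base, conjugate to `g`. -/
def suspReturn (g : Y ≃ₜ Y) (m : ℕ) : suspBase Y m ≃ₜ suspBase Y m :=
  (baseHomeo Y m).symm.trans (g.trans (baseHomeo Y m))

lemma suspReturn_equivariant (g : Y ≃ₜ Y) (m : ℕ) (y : Y) :
    baseHomeo Y m (g y) = suspReturn g m (baseHomeo Y m y) := rfl

theorem suspension_isTower (g : Y ≃ₜ Y) (m : ℕ) :
    IsTower (suspension g m) (m + 1) (suspBase Y m) (suspReturn g m) where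
  pos := Nat.succ_pos m
  isClopen := (isClopen_discrete ({0} : Set (Fin (m + 1)))).preimage continuous_snd
  cover x := by
    rcases x with ⟨y, i⟩
    exact ⟨i.val, i.isLt, (y, 0), rfl, suspension_iterate g m y i.val i.isLt⟩
  disjoint i hi j hj y hy z hz hyz := by
    rcases y with ⟨a, s⟩
    rcases z with ⟨b, t⟩
    have hs : s = 0 := hy
    have ht : t = 0 := hz
    subst hs
    subst ht
    rw [suspension_iterate g m a i hi, suspension_iterate g m b j hj] at hyz
    have := congrArg (fun p : Y × Fin (m + 1) => p.2.val) hyz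
    exact this
  return_map u := by
    rcases u with ⟨⟨y, i⟩, hi⟩
    have hi' : i = 0 := hi
    subst hi'
    exact (suspension_iterate_full g m y).symm

theorem suspension_isMinimal (g : Y ≃ₜ Y) (m : ℕ) (hg : IsMinimalHomeo g) :
    IsMinimalHomeo (suspension g m) := by
  refine (suspension_isTower g m).isMinimalHomeo_total ?_
  intro u
  have hconj : ∀ (k : ℤ) (y : Y),
      baseHomeo Y m ((g ^ k) y) = (suspReturn g m ^ k) (baseHomeo Y m y) := by
    intro k
    have hnat : ∀ (l : ℕ) (y : Y),
        baseHomeo Y m ((g ^ l) y) = (suspReturn g m ^ l) (baseHomeo Y m y) := by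
      intro l
      induction l with
      | zero => intro y; rfl
      | succ l ih =>
        intro y
        rw [pow_succ, pow_succ, Homeomorph.mul_apply, Homeomorph.mul_apply, ih,
          suspReturn_equivariant]
    obtain ⟨l, rfl | rfl⟩ := Int.eq_nat_or_neg k
    · intro y
      rw [zpow_natCast, zpow_natCast, hnat]
    · intro y
      rw [zpow_neg, zpow_neg, zpow_natCast, zpow_natCast]
      have := hnat l ((g ^ l)⁻¹ y)
      rw [← Homeomorph.mul_apply, mul_inv_cancel] at this
      show baseHomeo Y m ((g ^ l)⁻¹ y) = (suspReturn g m ^ l).symm (baseHomeo Y m y)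
      rw [Homeomorph.eq_symm_apply]
      exact this.symm
  have hd : DenseRange fun k : ℤ => (g ^ k) ((baseHomeo Y m).symm u) :=
    hg ((baseHomeo Y m).symm u)
  have hd2 : DenseRange ((baseHomeo Y m) ∘ fun k : ℤ => (g ^ k) ((baseHomeo Y m).symm u)) :=
    (baseHomeo Y m).surjective.denseRange.comp hd (baseHomeo Y m).continuous
  have hfun : ((baseHomeo Y m) ∘ fun k : ℤ => (g ^ k) ((baseHomeo Y m).symm u))
      = fun k : ℤ => (suspReturn g m ^ k) u := by
    funext k
    show baseHomeo Y m ((g ^ k) ((baseHomeo Y m).symm u)) = (suspReturn g m ^ k) u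
    rw [hconj, Homeomorph.apply_symm_apply]
  rw [hfun] at hd2
  exact hd2

theorem suspension_invariants [CompactSpace Y] (g : Y ≃ₜ Y) (m : ℕ) :
    rc (crossedProduct g)
        = ((m + 1 : ℕ) : ℝ≥0∞) * rc (crossedProduct (suspension g m)) ∧
      mdim g = ((m + 1 : ℕ) : ℝ≥0∞) * mdim (suspension g m) := by
  have ht := suspension_isTower g m
  constructor
  · rw [rc_conj (baseHomeo Y m) (suspReturn_equivariant g m)]
    exact rc_tower_eq ht
  · rw [mdim_conj (baseHomeo Y m) g.continuous (suspReturn g m).continuous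
      (suspReturn_equivariant g m)]
    exact ht.mdim_tower_eq

end Susp

end Vale.Agent.Lib.P093
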