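import Vale.Agent.Lib.P093.Defs

/-!
Elementary consequences of the tower axioms.
-/

namespace Vale.Agent.Lib.P093

open Filter Topology

variable {X : Type*} [TopologicalSpace X]

lemma iterate_eq_pow (h : X ≃ₜ X) (j : ℕ) (y : X) : (h^[j]) y = (h ^ j) y := by
  induction j generalizing y with
  | zero => rfl
  | succ k ih =>
    rw [Function.iterate_succ_apply, ih, pow_succ]
    rfl

namespace IsTower

variable {h : X ≃ₜ X} {n : ℕ} {U : Set X} {g : U ≃ₜ U}

lemma return_pow (ht : IsTower h n U g) (y : U) : ((g y : U) : X) = (h ^ n) y := by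
  rw [ht.return_map, iterate_eq_pow]

lemma g_pow (ht : IsTower h n U g) (m : ℕ) (y : U) :
    (((g ^ m) y : U) : X) = (h ^ (n * m)) y := by
  induction m generalizing y with
  | zero => simp
  | succ k ih =>
    rw [pow_succ, Homeomorph.mul_apply, ih, ht.return_pow, Nat.mul_succ, pow_add,
      Homeomorph.mul_apply]

lemma g_zpow (ht : IsTower h n U g) (l : ℤ) (y : U) :
    (((g ^ l) y : U) : X) = (h ^ ((n : ℤ) * l)) y := by
  obtain ⟨m, rfl | rfl⟩ := Int.eq_nat_or_neg l
  · rw [zpow_natCast, ht.g_pow, ← Nat.cast_mul, zpow_natCast]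
  · have h1 : ((g ^ m) ((g ^ (-(m : ℤ))) y) : U) = y := by
      rw [← zpow_natCast, ← Homeomorph.mul_apply, ← zpow_add]
      simp
    have h2 := ht.g_pow m ((g ^ (-(m : ℤ))) y)
    rw [h1] at h2
    rw [h2, ← Homeomorph.mul_apply, ← zpow_natCast, ← zpow_add]
    simp

lemma symm_apply (ht : IsTower h n U g) (y : U) : ((g.symm y : U) : X) = (h ^ n).symm y := by
  have := ht.return_pow (g.symm y)
  rw [Homeomorph.apply_symm_apply] at this
  rw [this, Homeomorph.symm_apply_apply]

lemma dvd_of_mem (ht : IsTower h n U g) (k : ℤ) {y : X} (hy : y ∈ U) (hk : (h ^ k) y ∈ U) :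
    (n : ℤ) ∣ k := by
  have hn : (0 : ℤ) < n := by exact_mod_cast ht.pos
  set l := k / n
  set r := k % n
  have hr0 : 0 ≤ r := Int.emod_nonneg k hn.ne'
  have hrn : r < n := Int.emod_lt_of_pos k hn
  have hk' : k = r + n * l := (Int.emod_add_mul_ediv k n).symm
  have hz := ht.g_zpow l ⟨y, hy⟩
  set z : U := (g ^ l) ⟨y, hy⟩
  have hw : (h^[r.toNat]) (z : X) = (h ^ k) y := by
    rw [iterate_eq_pow, hz, ← Homeomorph.mul_apply, ← zpow_natCast, ← zpow_add,
      Int.toNat_of_nonneg hr0, ← hk']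
  have h0 : r.toNat = 0 := by
    refine ht.disjoint r.toNat ?_ 0 ht.pos z z.2 ((h ^ k) y) hk ?_
    · have : (r.toNat : ℤ) < n := by rw [Int.toNat_of_nonneg hr0]; exact hrn
      exact_mod_cast this
    · rw [hw]
      rfl
  have hr : r = 0 := by
    have := Int.toNat_of_nonneg hr0
    rw [h0] at this
    exact this.symm
  exact Int.dvd_of_emod_eq_zero hr

lemma exists_level (ht : IsTower h n U g) (x : X) : ∃ j < n, (h ^ j).symm x ∈ U := by
  obtain ⟨j, hj, y, hy, hxy⟩ := ht.cover x
  refine ⟨j, hj, ?_⟩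
  rw [iterate_eq_pow] at hxy
  rw [← hxy, Homeomorph.symm_apply_apply]
  exact hy

lemma level_unique (ht : IsTower h n U g) (x : X) {i j : ℕ} (hi : i < n) (hj : j < n)
    (hxi : (h ^ i).symm x ∈ U) (hxj : (h ^ j).symm x ∈ U) : i = j := by
  refine ht.disjoint i hi j hj _ hxi _ hxj ?_
  rw [iterate_eq_pow, iterate_eq_pow, Homeomorph.apply_symm_apply, Homeomorph.apply_symm_apply]

lemma compactSpace [CompactSpace X] (ht : IsTower h n U g) : CompactSpace U :=
  isCompact_iff_compactSpace.mp ht.isClopen.isClosed.isCompact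

end IsTower

end Vale.Agent.Lib.P093
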