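import Vale.Agent.Lib.P093.CoverBasic
import Vale.Agent.Lib.P093.TowerBasic

/-!
For a clopen tower of height `n` with base `U` and return map `g`:
`mdim (X, h) ≤ mdim (U, g) / n`.
-/

namespace Vale.Agent.Lib.P093

open Filter Topology
open scoped ENNReal

variable {X : Type*} [TopologicalSpace X]

/-- Restriction of a cover of `X` to a subset `U`. -/
def restrictCover (U : Set X) (W : Set (Set X)) : Set (Set U) :=
  (fun s => (Subtype.val : U → X) ⁻¹' s) '' W

lemma isFinOpenCover_restrictCover (U : Set X) {W : Set (Set X)} (hW : IsFinOpenCover W) :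
    IsFinOpenCover (restrictCover U W) := by
  refine ⟨hW.1.image _, ?_, ?_⟩
  · rintro _ ⟨s, hs, rfl⟩
    exact (hW.2.1 s hs).preimage continuous_subtype_val
  · rw [Set.eq_univ_iff_forall]
    intro y
    have hy : (y : X) ∈ ⋃₀ W := by rw [hW.2.2]; trivial
    obtain ⟨s, hs, hys⟩ := hy
    exact ⟨_, ⟨s, hs, rfl⟩, hys⟩

/-- The cover of `X` obtained by spreading a cover of the base `U` over the tower levels. -/
def glue (h : X ≃ₜ X) (n : ℕ) (U : Set X) (W : Set (Set U)) : Set (Set X) :=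
  Set.image2 (fun j w => (h^[j]) '' ((Subtype.val : U → X) '' w)) (Set.Iio n) W

namespace IsTower

variable {h : X ≃ₜ X} {n : ℕ} {U : Set X} {g : U ≃ₜ U}

lemma g_iterate (ht : IsTower h n U g) (k : ℕ) (y : U) :
    (((g^[k]) y : U) : X) = (h^[n * k]) y := by
  induction k generalizing y with
  | zero => rfl
  | succ k ih =>
    rw [Function.iterate_succ_apply, ih, ht.return_map, ← Function.iterate_add_apply,
      Nat.mul_succ]

lemma isFinOpenCover_glue (ht : IsTower h n U g) {W : Set (Set U)} (hW : IsFinOpenCover W) :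
    IsFinOpenCover (glue h n U W) := by
  refine ⟨Set.Finite.image2 _ (Set.finite_Iio n) hW.1, ?_, ?_⟩
  · rintro _ ⟨j, _, w, hw, rfl⟩
    have h1 : IsOpen ((Subtype.val : U → X) '' w) :=
      ht.isClopen.isOpen.isOpenMap_subtype_val w (hW.2.1 w hw)
    have h2 : (h^[j]) = ⇑(h ^ j) := funext (iterate_eq_pow h j)
    show IsOpen ((h^[j]) '' ((Subtype.val : U → X) '' w))
    rw [h2]
    exact (h ^ j).isOpenMap _ h1
  · rw [Set.eq_univ_iff_forall]
    intro x
    obtain ⟨j, hj, y, hy, hxy⟩ := ht.cover x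
    have hyW : (⟨y, hy⟩ : U) ∈ ⋃₀ W := by rw [hW.2.2]; trivial
    obtain ⟨w, hw, hyw⟩ := hyW
    exact ⟨_, ⟨j, hj, w, hw, rfl⟩, ⟨y, ⟨⟨y, hy⟩, hyw, rfl⟩, hxy⟩⟩

lemma glue_orderLE (ht : IsTower h n U g) {W : Set (Set U)} {k : ℕ} (hW : OrderLE W k) :
    OrderLE (glue h n U W) k := by
  intro x F hF hx
  obtain ⟨j₀, hj₀, y₀, hy₀, hxy⟩ := ht.cover x
  classical
  let p : Set X → Set U := fun s => {y : U | (h^[j₀]) (y : X) ∈ s}
  have key : ∀ s ∈ F, p s ∈ W ∧ (⟨y₀, hy₀⟩ : U) ∈ p s ∧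
      s = (h^[j₀]) '' ((Subtype.val : U → X) '' p s) := by
    intro s hs
    obtain ⟨j, hj, w, hw, rfl⟩ := hF hs
    obtain ⟨_, ⟨y, hyw, rfl⟩, hyx⟩ := hx _ hs
    have hjj : j = j₀ := ht.disjoint j hj j₀ hj₀ y y.2 y₀ hy₀ (hyx.trans hxy.symm)
    subst hjj
    have hp : p ((h^[j]) '' ((Subtype.val : U → X) '' w)) = w := by
      ext z
      constructor
      · rintro ⟨_, ⟨z', hz', rfl⟩, hzz⟩
        have h1 : (z' : X) = z := (h.injective.iterate j) hzz
        have h2 : z' = z := Subtype.ext h1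
        exact h2 ▸ hz'
      · intro hz
        exact ⟨_, ⟨z, hz, rfl⟩, rfl⟩
    rw [hp]
    refine ⟨hw, ?_, rfl⟩
    have h1 : (y : X) = y₀ := (h.injective.iterate j) (hyx.trans hxy.symm)
    have h2 : y = ⟨y₀, hy₀⟩ := Subtype.ext h1
    exact h2 ▸ hyw
  have hinj : Set.InjOn p (F : Set (Set X)) := by
    intro s hs s' hs' hpp
    rw [(key s hs).2.2, (key s' hs').2.2, hpp]
  have hcard : (F.image p).card = F.card := Finset.card_image_of_injOn hinj
  rw [← hcard]
  refine hW ⟨y₀, hy₀⟩ (F.image p) ?_ ?_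
  · intro w hw
    obtain ⟨s, hs, rfl⟩ := Finset.mem_image.1 (Finset.mem_coe.1 hw)
    exact (key s hs).1
  · intro w hw
    obtain ⟨s, hs, rfl⟩ := Finset.mem_image.1 hw
    exact (key s hs).2.1

lemma glue_refines (ht : IsTower h n U g) {V : Set (Set X)} {W : Set (Set U)} {N M : ℕ}
    (hNM : N + n ≤ n * M + 1)
    (hW : Refines W (joinCover g (restrictCover U (joinCover h V n)) M)) :
    Refines (glue h n U W) (joinCover h V N) := by
  rintro _ ⟨j, hj, w, hw, rfl⟩
  obtain ⟨t, ⟨c, hc, rfl⟩, hwt⟩ := hW w hw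
  have : ∀ k, ∃ d : ℕ → Set X, (∀ i, d i ∈ V) ∧
      c k = (Subtype.val : U → X) ⁻¹' (⋂ i ∈ Finset.range n, (h^[i]) ⁻¹' (d i)) := by
    intro k
    obtain ⟨s, ⟨d, hd, rfl⟩, hs⟩ := hc k
    exact ⟨d, hd, hs.symm⟩
  choose d hd hcd using this
  refine ⟨_, ⟨fun m => d ((m + j) / n) ((m + j) % n), fun m => hd _ _, rfl⟩, ?_⟩
  rintro _ ⟨_, ⟨y, hy, rfl⟩, rfl⟩
  simp only [Set.mem_iInter, Set.mem_preimage, Finset.mem_range]
  intro m hm
  have hy' := hwt hy
  simp only [Set.mem_iInter, Set.mem_preimage, Finset.mem_range] at hy'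
  have hn := ht.pos
  have hj' : j < n := hj
  have hlt : (m + j) / n < M := by
    rw [Nat.div_lt_iff_lt_mul hn, Nat.mul_comm]
    generalize n * M = P at hNM ⊢
    omega
  have h1 := hy' ((m + j) / n) hlt
  rw [hcd] at h1
  simp only [Set.mem_preimage, Set.mem_iInter, Finset.mem_range] at h1
  have h2 := h1 ((m + j) % n) (Nat.mod_lt _ hn)
  rw [ht.g_iterate, ← Function.iterate_add_apply, Nat.mod_add_div] at h2
  rw [← Function.iterate_add_apply]
  exact h2

lemma coverD_join_le (ht : IsTower h n U g) {V : Set (Set X)} (hV : IsFinOpenCover V)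
    {N M : ℕ} (hNM : N + n ≤ n * M + 1) :
    coverD (joinCover h V N) ≤ coverD (joinCover g (restrictCover U (joinCover h V n)) M) := by
  have hV' : IsFinOpenCover (restrictCover U (joinCover h V n)) :=
    isFinOpenCover_restrictCover U (isFinOpenCover_joinCover h.continuous hV n)
  obtain ⟨W, hW, hWr, hWo⟩ := coverD_spec (isFinOpenCover_joinCover g.continuous hV' M)
  exact coverD_le (ht.isFinOpenCover_glue hW) (ht.glue_refines hNM hWr) (ht.glue_orderLE hWo)

end IsTower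

end Vale.Agent.Lib.P093
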