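import Vale.Agent.Lib.P093.CrossedOps
import Vale.Agent.Lib.P093.TowerBasic
import Vale.Agent.Lib.P093.RCTransfer

/-!
For a clopen tower of height `n` with base `U` and return map `g`:
`rc (C*(U, g)) ≤ n * rc (C*(X, h))`.
-/

namespace Vale.Agent.Lib.P093

open Filter Topology
open scoped ENNReal NNReal

noncomputable section

section Plain

variable {X : Type*}

/-- `T ↦ V T V*` for the inclusion isometry `V : ℓ²(U) → ℓ²(X)`. -/
def PhiOp (U : Set X) (T : L2 U →L[ℂ] L2 U) : L2 X →L[ℂ] L2 X :=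
  (extOp U).comp (T.comp (resOp U))

/-- `S ↦ V* S V`. -/
def PsiOp (U : Set X) (S : L2 X →L[ℂ] L2 X) : L2 U →L[ℂ] L2 U :=
  (resOp U).comp (S.comp (extOp U))

lemma PhiOp_apply (U : Set X) (T : L2 U →L[ℂ] L2 U) (ξ : L2 X) :
    PhiOp U T ξ = extOp U (T (resOp U ξ)) := rfl

lemma PsiOp_apply (U : Set X) (S : L2 X →L[ℂ] L2 X) (ξ : L2 U) :
    PsiOp U S ξ = resOp U (S (extOp U ξ)) := rfl

lemma resOp_extOp (U : Set X) (ξ : L2 U) : resOp U (extOp U ξ) = ξ := by
  ext y
  simp

lemma PhiOp_mul (U : Set X) (T T' : L2 U →L[ℂ] L2 U) :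
    PhiOp U (T * T') = PhiOp U T * PhiOp U T' := by
  ext1 ξ
  show extOp U (T (T' (resOp U ξ))) = extOp U (T (resOp U (extOp U (T' (resOp U ξ)))))
  rw [resOp_extOp]

lemma star_PhiOp (U : Set X) (T : L2 U →L[ℂ] L2 U) : star (PhiOp U T) = PhiOp U (star T) := by
  rw [ContinuousLinearMap.star_eq_adjoint, ContinuousLinearMap.star_eq_adjoint, PhiOp, PhiOp,
    ContinuousLinearMap.adjoint_comp, ContinuousLinearMap.adjoint_comp, adjoint_extOp,
    adjoint_resOp]
  rfl

lemma star_PsiOp (U : Set X) (S : L2 X →L[ℂ] L2 X) : star (PsiOp U S) = PsiOp U (star S) := by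
  rw [ContinuousLinearMap.star_eq_adjoint, ContinuousLinearMap.star_eq_adjoint, PsiOp, PsiOp,
    ContinuousLinearMap.adjoint_comp, ContinuousLinearMap.adjoint_comp, adjoint_extOp,
    adjoint_resOp]
  rfl

lemma PsiOp_mid (U : Set X) (S S' : L2 X →L[ℂ] L2 X) (T : L2 U →L[ℂ] L2 U) :
    PsiOp U (S * PhiOp U T * S') = PsiOp U S * T * PsiOp U S' := rfl

lemma PsiOp_PhiOp (U : Set X) (T : L2 U →L[ℂ] L2 U) : PsiOp U (PhiOp U T) = T := by
  ext1 ξ
  show resOp U (extOp U (T (resOp U (extOp U ξ)))) = T ξ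
  rw [resOp_extOp, resOp_extOp]

lemma PhiOp_add (U : Set X) (T T' : L2 U →L[ℂ] L2 U) :
    PhiOp U (T + T') = PhiOp U T + PhiOp U T' := by
  ext1 ξ
  simp [PhiOp_apply]

lemma PhiOp_smul (U : Set X) (c : ℂ) (T : L2 U →L[ℂ] L2 U) :
    PhiOp U (c • T) = c • PhiOp U T := by
  ext1 ξ
  simp [PhiOp_apply]

lemma PsiOp_add (U : Set X) (S S' : L2 X →L[ℂ] L2 X) :
    PsiOp U (S + S') = PsiOp U S + PsiOp U S' := by
  ext1 ξ
  simp [PsiOp_apply]

lemma PsiOp_smul (U : Set X) (c : ℂ) (S : L2 X →L[ℂ] L2 X) :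
    PsiOp U (c • S) = c • PsiOp U S := by
  ext1 ξ
  simp [PsiOp_apply]

lemma PsiOp_zero (U : Set X) : PsiOp U (0 : L2 X →L[ℂ] L2 X) = 0 := by
  ext1 ξ
  simp [PsiOp_apply]

lemma continuous_PhiOp (U : Set X) : Continuous (PhiOp U) :=
  continuous_const.clm_comp (continuous_id.clm_comp continuous_const)

lemma continuous_PsiOp (U : Set X) : Continuous (PsiOp U) :=
  continuous_const.clm_comp (continuous_id.clm_comp continuous_const)

end Plain

variable {X : Type*} [TopologicalSpace X]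

lemma continuous_ext0 {U : Set X} (hU : IsClopen U) (f : C(U, ℂ)) : Continuous (ext0 U f) := by
  rw [continuous_iff_continuousAt]
  intro x
  by_cases hx : x ∈ U
  · have hc : ContinuousOn (ext0 U f) U := by
      rw [continuousOn_iff_continuous_domRestrict]
      convert f.continuous using 1
      funext y
      simp [Set.domRestrict]
    exact hc.continuousAt (hU.isOpen.mem_nhds hx)
  · have hc : ContinuousOn (ext0 U f) Uᶜ :=
      continuousOn_const.congr (fun y hy => ext0_not_mem U f hy)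
    exact hc.continuousAt (hU.compl.isOpen.mem_nhds hx)

/-- Extension by zero of a continuous function on a clopen set. -/
def extC {U : Set X} (hU : IsClopen U) (f : C(U, ℂ)) : C(X, ℂ) :=
  ⟨ext0 U f, continuous_ext0 hU f⟩

lemma extC_apply {U : Set X} (hU : IsClopen U) (f : C(U, ℂ)) (x : X) :
    extC hU f x = ext0 U f x := rfl

lemma gen_mem {h : X ≃ₜ X} {T : L2 X →L[ℂ] L2 X} (hT : T ∈ generators h) :
    T ∈ crossedProduct h :=
  StarSubalgebra.le_topologicalClosure _ (StarAlgebra.subset_adjoin ℂ _ hT)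

lemma shiftOp_pow_mem (h : X ≃ₜ X) (m : ℕ) : shiftOp (h ^ m) ∈ crossedProduct h := by
  rw [shiftOp_pow]
  exact pow_mem (gen_mem (shiftOp_mem_generators h)) m

lemma shiftOp_zpow_mem (h : X ≃ₜ X) (k : ℤ) : shiftOp (h ^ k) ∈ crossedProduct h := by
  obtain ⟨m, rfl | rfl⟩ := Int.eq_nat_or_neg k
  · rw [zpow_natCast]
    exact shiftOp_pow_mem h m
  · rw [zpow_neg, zpow_natCast, ← star_shiftOp]
    exact star_mem (shiftOp_pow_mem h m)

section Tower

variable [CompactSpace X] {h : X ≃ₜ X} {n : ℕ} {U : Set X} {g : U ≃ₜ U}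

lemma mulC_mem (h : X ≃ₜ X) (f : C(X, ℂ)) : mulC f ∈ crossedProduct h :=
  gen_mem (mulC_mem_generators h f)

lemma PhiOp_one (ht : IsTower h n U g) : PhiOp U 1 = mulC (extC ht.isClopen 1) := by
  ext ξ x
  rw [mulC_apply, extC_apply, PhiOp_apply]
  by_cases hx : x ∈ U
  · rw [extOp_apply_mem U _ hx, ext0_mem U _ hx]
    simp
  · rw [extOp_apply_not_mem U _ hx, ext0_not_mem U _ hx]
    simp

lemma PhiOp_generator_mem (ht : IsTower h n U g) {T : L2 U →L[ℂ] L2 U}
    (hT : T ∈ generators g) : PhiOp U T ∈ crossedProduct h := by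
  rcases hT with ⟨f, hf⟩ | hT
  · refine gen_mem (Or.inl ⟨extC ht.isClopen f, ?_⟩)
    intro ξ x
    rw [extC_apply, PhiOp_apply]
    by_cases hx : x ∈ U
    · rw [extOp_apply_mem U _ hx, ext0_mem U _ hx, hf]
      simp
    · rw [extOp_apply_not_mem U _ hx, ext0_not_mem U _ hx]
      simp
  · have : PhiOp U T = mulC (extC ht.isClopen 1) * shiftOp (h ^ n) := by
      ext ξ x
      rw [PhiOp_apply]
      show _ = mulC (extC ht.isClopen 1) (shiftOp (h ^ n) ξ) x
      rw [mulC_apply, extC_apply, shiftOp_apply]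
      by_cases hx : x ∈ U
      · rw [extOp_apply_mem U _ hx, ext0_mem U _ hx, hT, resOp_apply, ht.symm_apply]
        simp
      · rw [extOp_apply_not_mem U _ hx, ext0_not_mem U _ hx]
        simp
    rw [this]
    exact mul_mem (mulC_mem h _) (shiftOp_pow_mem h n)

lemma PhiOp_mem (ht : IsTower h n U g) {T : L2 U →L[ℂ] L2 U}
    (hT : T ∈ crossedProduct g) : PhiOp U T ∈ crossedProduct h := by
  have hadj : ∀ T ∈ StarAlgebra.adjoin ℂ (generators g), PhiOp U T ∈ crossedProduct h := by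
    intro T hT
    induction hT using StarAlgebra.adjoin_induction with
    | mem x hx => exact PhiOp_generator_mem ht hx
    | algebraMap r =>
      rw [Algebra.algebraMap_eq_smul_one, PhiOp_smul, PhiOp_one ht]
      exact (crossedProduct h).smul_mem (mulC_mem h _) r
    | add x y _ _ hx hy => rw [PhiOp_add]; exact add_mem hx hy
    | mul x y _ _ hx hy => rw [PhiOp_mul]; exact mul_mem hx hy
    | star x _ hx => rw [← star_PhiOp]; exact star_mem hx
  rw [crossedProduct, ← SetLike.mem_coe, StarSubalgebra.topologicalClosure_coe] at hT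
  have := map_mem_closure (continuous_PhiOp U) hT (t := (crossedProduct h : Set _))
    (fun T hT => hadj T hT)
  rwa [(crossedProduct_isClosed h).closure_eq] at this

lemma PsiOp_monomial_mem (ht : IsTower h n U g) (f : C(X, ℂ)) (k : ℤ) :
    PsiOp U (mulC f * shiftOp (h ^ k)) ∈ crossedProduct g := by
  have := ht.compactSpace
  by_cases hk : (n : ℤ) ∣ k
  · obtain ⟨l, rfl⟩ := hk
    have : PsiOp U (mulC f * shiftOp (h ^ ((n : ℤ) * l)))
        = mulC (f.restrict U) * shiftOp (g ^ l) := by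
      ext ξ y
      rw [PsiOp_apply, resOp_apply]
      show mulC f (shiftOp (h ^ ((n : ℤ) * l)) (extOp U ξ)) y = mulC (f.restrict U) (shiftOp (g ^ l) ξ) y
      rw [mulC_apply, mulC_apply, shiftOp_apply, shiftOp_apply]
      have h1 : (h ^ ((n : ℤ) * l)).symm (y : X) = (((g ^ l).symm y : U) : X) := by
        have := ht.g_zpow l ((g ^ l).symm y)
        rw [Homeomorph.apply_symm_apply] at this
        rw [this, Homeomorph.symm_apply_apply]
      rw [h1, extOp_apply_coe]
      rfl
    rw [this]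
    exact mul_mem (gen_mem (mulC_mem_generators g _)) (shiftOp_zpow_mem g l)
  · have : PsiOp U (mulC f * shiftOp (h ^ k)) = 0 := by
      ext ξ y
      rw [PsiOp_apply, resOp_apply]
      show mulC f (shiftOp (h ^ k) (extOp U ξ)) y = 0
      rw [mulC_apply, shiftOp_apply]
      have h1 : (h ^ k).symm (y : X) ∉ U := by
        intro hmem
        apply hk
        refine ht.dvd_of_mem k hmem ?_
        rw [Homeomorph.apply_symm_apply]
        exact y.2
      rw [extOp_apply_not_mem U _ h1, mul_zero]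
    rw [this]
    exact zero_mem _

lemma PsiOp_span_mem (ht : IsTower h n U g) {S : L2 X →L[ℂ] L2 X}
    (hS : S ∈ Submodule.span ℂ (monomials h)) : PsiOp U S ∈ crossedProduct g := by
  induction hS using Submodule.span_induction with
  | mem y hy =>
    obtain ⟨f, k, rfl⟩ := hy
    exact PsiOp_monomial_mem ht f k
  | zero => rw [PsiOp_zero]; exact zero_mem _
  | add y z _ _ hy hz => rw [PsiOp_add]; exact add_mem hy hz
  | smul c y _ hy => rw [PsiOp_smul]; exact (crossedProduct g).smul_mem hy c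

lemma PsiOp_mem (ht : IsTower h n U g) {S : L2 X →L[ℂ] L2 X}
    (hS : S ∈ crossedProduct h) : PsiOp U S ∈ crossedProduct g := by
  have hadj : ∀ S ∈ StarAlgebra.adjoin ℂ (generators h), PsiOp U S ∈ crossedProduct g := by
    intro S hS
    exact PsiOp_span_mem ht (adjoin_le_span_monomials h hS)
  rw [crossedProduct, ← SetLike.mem_coe, StarSubalgebra.topologicalClosure_coe] at hS
  have := map_mem_closure (continuous_PsiOp U) hS (t := (crossedProduct g : Set _))
    (fun S hS => hadj S hS)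
  rwa [(crossedProduct_isClosed g).closure_eq] at this

lemma sum_conj_ind (ht : IsTower h n U g) :
    ∑ j ∈ Finset.range n,
      shiftOp (h ^ j) * mulC (extC ht.isClopen 1) * shiftOp (h ^ j)⁻¹ = 1 := by
  ext ξ x
  rw [sum_apply, lp.coeFn_sum, Finset.sum_apply]
  have hterm : ∀ j : ℕ, (shiftOp (h ^ j) * mulC (extC ht.isClopen 1) * shiftOp (h ^ j)⁻¹) ξ x
      = ext0 U (1 : C(U, ℂ)) ((h ^ j).symm x) * ξ x := by
    intro j
    show shiftOp (h ^ j) (mulC (extC ht.isClopen 1) (shiftOp (h ^ j)⁻¹ ξ)) x = _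
    rw [shiftOp_apply, mulC_apply, shiftOp_apply, extC_apply]
    congr 2
    exact congrArg ξ ((h ^ j).apply_symm_apply x)
  simp only [hterm]
  obtain ⟨j₀, hj₀, hmem⟩ := ht.exists_level x
  rw [Finset.sum_eq_single j₀]
  · rw [ext0_mem U _ hmem]
    simp
  · intro j hj hne
    have : (h ^ j).symm x ∉ U := fun hm =>
      hne (ht.level_unique x (Finset.mem_range.1 hj) hj₀ hm hmem)
    rw [ext0_not_mem U _ this, zero_mul]
  · intro hnot
    exact absurd (Finset.mem_range.2 hj₀) hnot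

lemma trace_corner (ht : IsTower h n U g) (τ : (crossedProduct h) →ₗ[ℂ] ℂ)
    (hτ : IsTracialState (crossedProduct h) τ) :
    τ ⟨mulC (extC ht.isClopen 1), mulC_mem h _⟩ = (n : ℂ)⁻¹ := by
  set e : crossedProduct h := ⟨mulC (extC ht.isClopen 1), mulC_mem h _⟩ with he
  let u : ℕ → crossedProduct h := fun j => ⟨shiftOp (h ^ j), shiftOp_pow_mem h j⟩
  let v : ℕ → crossedProduct h := fun j => ⟨shiftOp (h ^ j)⁻¹, by
    rw [← star_shiftOp]; exact star_mem (shiftOp_pow_mem h j)⟩
  have hvu : ∀ j, v j * u j = 1 := fun j => Subtype.ext (shiftOp_inv_mul (h ^ j))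
  have hsum : ∑ j ∈ Finset.range n, u j * e * v j = 1 := by
    apply Subtype.ext
    rw [AddSubmonoidClass.coe_finsetSum]
    exact sum_conj_ind ht
  have hterm : ∀ j, τ (u j * e * v j) = τ e := by
    intro j
    rw [mul_assoc, hτ.2.2 (u j) (e * v j), mul_assoc, hvu j, mul_one]
  have h1 : τ (∑ j ∈ Finset.range n, u j * e * v j) = n * τ e := by
    rw [map_sum]
    simp [hterm]
  rw [hsum, hτ.1] at h1
  have hn : (n : ℂ) ≠ 0 := by exact_mod_cast ht.pos.ne'
  rw [eq_comm, mul_comm] at h1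
  exact eq_inv_of_mul_eq_one_left h1

/-- The star homomorphism `C*(U, g) → C*(X, h)`, `T ↦ V T V*`. -/
def phiL (ht : IsTower h n U g) : (crossedProduct g) →ₗ[ℂ] (crossedProduct h) where
  toFun T := ⟨PhiOp U T.1, PhiOp_mem ht T.2⟩
  map_add' T T' := Subtype.ext (PhiOp_add U T.1 T'.1)
  map_smul' c T := Subtype.ext (PhiOp_smul U c T.1)

/-- The compression `C*(X, h) → C*(U, g)`, `S ↦ V* S V`. -/
def psiL (ht : IsTower h n U g) : (crossedProduct h) →ₗ[ℂ] (crossedProduct g) where
  toFun S := ⟨PsiOp U S.1, PsiOp_mem ht S.2⟩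
  map_add' S S' := Subtype.ext (PsiOp_add U S.1 S'.1)
  map_smul' c S := Subtype.ext (PsiOp_smul U c S.1)

theorem cornerData (ht : IsTower h n U g) : CornerData n (phiL ht) (psiL ht) where
  pos := ht.pos
  φ_mul x y := Subtype.ext (PhiOp_mul U x.1 y.1)
  φ_star x := Subtype.ext (star_PhiOp U x.1).symm
  ψ_cont := ((continuous_PsiOp U).comp continuous_subtype_val).subtype_mk _
  ψ_star x := Subtype.ext (star_PsiOp U x.1).symm
  ψ_mid s t r := Subtype.ext (PsiOp_mid U s.1 r.1 t.1)
  ψ_φ t := Subtype.ext (PsiOp_PhiOp U t.1)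
  trace τ hτ := by
    have := trace_corner ht τ hτ
    convert this using 2
    exact Subtype.ext (PhiOp_one ht)

/-- For a clopen tower of height `n` with base `U` and return map `g`,
`rc (C*(U, g)) ≤ n * rc (C*(X, h))`. -/
theorem rc_tower_le (ht : IsTower h n U g) :
    rc (crossedProduct g) ≤ n * rc (crossedProduct h) :=
  rc_corner_le (cornerData ht)

end Tower

end

end Vale.Agent.Lib.P093
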