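import Vale.Agent.Lib.P093.TowerRC
import Vale.Agent.Lib.P093.RCMatrix

/-!
For a clopen tower of height `n` with base `U` and return map `g`:
`n * rc (C*(X, h)) ≤ rc (C*(U, g))`, hence `rc (C*(U, g)) = n * rc (C*(X, h))`.
-/

namespace Vale.Agent.Lib.P093

open Filter Topology
open scoped ENNReal NNReal

noncomputable section

variable {X : Type*} [TopologicalSpace X]

lemma extC_one_mul_self {U : Set X} (hU : IsClopen U) :
    extC hU 1 * extC hU 1 = extC hU 1 := by
  ext x
  by_cases hx : x ∈ U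
  · simp [extC_apply, ext0_mem U _ hx]
  · simp [extC_apply, ext0_not_mem U _ hx]

lemma star_extC_one {U : Set X} (hU : IsClopen U) : star (extC hU 1) = extC hU 1 := by
  ext x
  by_cases hx : x ∈ U
  · simp [extC_apply, ext0_mem U _ hx]
  · simp [extC_apply, ext0_not_mem U _ hx]

variable [CompactSpace X] {h : X ≃ₜ X} {n : ℕ} {U : Set X} {g : U ≃ₜ U}

lemma proj_mul_self {U : Set X} (hU : IsClopen U) :
    mulC (extC hU 1) * mulC (extC hU 1) = mulC (extC hU 1) := by
  rw [mulC_mul, extC_one_mul_self]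

lemma star_proj {U : Set X} (hU : IsClopen U) :
    star (mulC (extC hU 1)) = mulC (extC hU 1) := by
  rw [star_mulC, star_extC_one]

lemma proj_shift_proj (ht : IsTower h n U g) {i j : ℕ} (hi : i < n) (hj : j < n) (hij : i ≠ j) :
    mulC (extC ht.isClopen 1) * (shiftOp (h ^ i)⁻¹ * (shiftOp (h ^ j) * mulC (extC ht.isClopen 1)))
      = 0 := by
  ext ξ x
  show mulC (extC ht.isClopen 1)
    (shiftOp (h ^ i)⁻¹ (shiftOp (h ^ j) (mulC (extC ht.isClopen 1) ξ))) x = 0
  rw [mulC_apply, shiftOp_apply, shiftOp_apply, mulC_apply, extC_apply, extC_apply]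
  by_cases hx : x ∈ U
  · have hy : (h ^ j).symm (((h ^ i)⁻¹).symm x) ∉ U := by
      intro hy
      have hk : (h ^ (-(j : ℤ) + (i : ℤ))) x = (h ^ j).symm (((h ^ i)⁻¹).symm x) := by
        rw [zpow_add, zpow_neg, zpow_natCast, zpow_natCast]
        rfl
      have hdvd := ht.dvd_of_mem (-(j : ℤ) + (i : ℤ)) hx (hk ▸ hy)
      have habs : |(-(j : ℤ) + (i : ℤ))| < (n : ℤ) := by
        rw [abs_lt]
        constructor <;> omega
      have := Int.eq_zero_of_abs_lt_dvd hdvd habs
      omega
    rw [ext0_not_mem U _ hy]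
    simp
  · rw [ext0_not_mem U _ hx]
    simp

/-- The partial isometries `u^i p` carrying the base onto the levels of the tower. -/
def towerV (ht : IsTower h n U g) (i : Fin n) : crossedProduct h :=
  ⟨shiftOp (h ^ (i : ℕ)) * mulC (extC ht.isClopen 1),
    mul_mem (shiftOp_pow_mem h i) (mulC_mem h _)⟩

lemma coe_star_towerV (ht : IsTower h n U g) (i : Fin n) :
    ((star (towerV ht i) : crossedProduct h) : L2 X →L[ℂ] L2 X)
      = mulC (extC ht.isClopen 1) * shiftOp (h ^ (i : ℕ))⁻¹ := by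
  show star (shiftOp (h ^ (i : ℕ)) * mulC (extC ht.isClopen 1)) = _
  rw [star_mul, star_proj, star_shiftOp]

lemma coe_phiL_one (ht : IsTower h n U g) :
    ((phiL ht 1 : crossedProduct h) : L2 X →L[ℂ] L2 X) = mulC (extC ht.isClopen 1) :=
  PhiOp_one ht

theorem matrixData (ht : IsTower h n U g) :
    MatrixData n (phiL ht) (psiL ht) (towerV ht) where
  corner := cornerData ht
  φ_cont := ((continuous_PhiOp U).comp continuous_subtype_val).subtype_mk _
  φ_ψ x := by
    apply Subtype.ext
    show PhiOp U (PsiOp U x.1) = PhiOp U 1 * x.1 * PhiOp U 1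
    ext1 ξ
    rfl
  v_p i := by
    apply Subtype.ext
    show shiftOp (h ^ (i : ℕ)) * mulC (extC ht.isClopen 1) * PhiOp U 1 = _
    rw [PhiOp_one ht, mul_assoc, proj_mul_self]
    rfl
  v_orth i j := by
    apply Subtype.ext
    rw [MulMemClass.coe_mul, coe_star_towerV]
    show mulC (extC ht.isClopen 1) * shiftOp (h ^ (i : ℕ))⁻¹
      * (shiftOp (h ^ (j : ℕ)) * mulC (extC ht.isClopen 1)) = _
    by_cases hij : i = j
    · subst hij
      rw [if_pos rfl, coe_phiL_one, mul_assoc, ← mul_assoc (shiftOp (h ^ (i : ℕ))⁻¹),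
        shiftOp_inv_mul, one_mul, proj_mul_self]
    · rw [if_neg hij, mul_assoc]
      have hne : (i : ℕ) ≠ (j : ℕ) := fun hh => hij (Fin.ext hh)
      rw [proj_shift_proj ht i.2 j.2 hne]
      rfl
  v_sum := by
    apply Subtype.ext
    rw [AddSubmonoidClass.coe_finsetSum]
    have hterm : ∀ i : Fin n, ((towerV ht i * star (towerV ht i) : crossedProduct h) :
        L2 X →L[ℂ] L2 X)
        = shiftOp (h ^ (i : ℕ)) * mulC (extC ht.isClopen 1) * shiftOp (h ^ (i : ℕ))⁻¹ := by
      intro i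
      rw [MulMemClass.coe_mul, coe_star_towerV]
      show shiftOp (h ^ (i : ℕ)) * mulC (extC ht.isClopen 1)
        * (mulC (extC ht.isClopen 1) * shiftOp (h ^ (i : ℕ))⁻¹) = _
      rw [mul_assoc, ← mul_assoc (mulC (extC ht.isClopen 1)), proj_mul_self, mul_assoc]
    simp only [hterm]
    rw [Fin.sum_univ_eq_sum_range
      (fun i => shiftOp (h ^ i) * mulC (extC ht.isClopen 1) * shiftOp (h ^ i)⁻¹) n]
    exact sum_conj_ind ht

/-- For a clopen tower of height `n` with base `U` and return map `g`,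
`n * rc (C*(X, h)) ≤ rc (C*(U, g))`. -/
theorem rc_tower_ge (ht : IsTower h n U g) :
    (n : ℝ≥0∞) * rc (crossedProduct h) ≤ rc (crossedProduct g) :=
  rc_matrix_le (matrixData ht)

/-- Exact scaling of the radius of comparison along a clopen tower. -/
theorem rc_tower_eq (ht : IsTower h n U g) :
    rc (crossedProduct g) = (n : ℝ≥0∞) * rc (crossedProduct h) :=
  le_antisymm (rc_tower_le ht) (rc_tower_ge ht)

end

end Vale.Agent.Lib.P093
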